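import Mathlib

/-!
Volumes of linear images of boxes and a counting lemma, for the passage from skew windows to
standard cubes.
-/

namespace Vale.Agent.P011.H436

open Finset MeasureTheory

variable {N : ℕ}

/-- Region `{v : a ≤ T⁻¹ (v - c) < b}`. -/
def region (T : (Fin N → ℝ) ≃ₗ[ℝ] (Fin N → ℝ)) (c a b : Fin N → ℝ) : Set (Fin N → ℝ) :=
  {v | ∀ i, a i ≤ T.symm (v - c) i ∧ T.symm (v - c) i < b i}

theorem region_eq (T : (Fin N → ℝ) ≃ₗ[ℝ] (Fin N → ℝ)) (c a b : Fin N → ℝ) :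
    region T c a b = (fun v => v - c) ⁻¹'
      ((T.symm : (Fin N → ℝ) →ₗ[ℝ] (Fin N → ℝ)) ⁻¹' (Set.pi Set.univ fun i => Set.Ico (a i) (b i))) := by
  ext v
  simp [region, Set.mem_pi]

theorem region_meas (T : (Fin N → ℝ) ≃ₗ[ℝ] (Fin N → ℝ)) (c a b : Fin N → ℝ) :
    MeasurableSet (region T c a b) := by
  rw [region_eq]
  have h1 : Continuous (T.symm : (Fin N → ℝ) →ₗ[ℝ] (Fin N → ℝ)) :=
    LinearMap.continuous_of_finiteDimensional _
  exact (continuous_id.sub continuous_const).measurable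
    (h1.measurable (MeasurableSet.univ_pi fun i => measurableSet_Ico))

theorem vol_region (T : (Fin N → ℝ) ≃ₗ[ℝ] (Fin N → ℝ)) (c a b : Fin N → ℝ) :
    volume (region T c a b) =
      ENNReal.ofReal |LinearMap.det (T : (Fin N → ℝ) →ₗ[ℝ] (Fin N → ℝ))| *
        ∏ i, ENNReal.ofReal (b i - a i) := by
  have hdet : LinearMap.det (T.symm : (Fin N → ℝ) →ₗ[ℝ] (Fin N → ℝ)) ≠ 0 :=
    (LinearEquiv.isUnit_det' T.symm).ne_zero
  have hinv : (LinearMap.det (T.symm : (Fin N → ℝ) →ₗ[ℝ] (Fin N → ℝ)))⁻¹ =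
      LinearMap.det (T : (Fin N → ℝ) →ₗ[ℝ] (Fin N → ℝ)) := by
    have h := LinearEquiv.det_symm_mul_det T
    exact inv_eq_of_mul_eq_one_right h
  rw [region_eq]
  have h1 : volume ((fun v => v - c) ⁻¹'
      ((T.symm : (Fin N → ℝ) →ₗ[ℝ] (Fin N → ℝ)) ⁻¹' (Set.pi Set.univ fun i => Set.Ico (a i) (b i)))) =
      volume ((T.symm : (Fin N → ℝ) →ₗ[ℝ] (Fin N → ℝ)) ⁻¹'
        (Set.pi Set.univ fun i => Set.Ico (a i) (b i))) := by
    simp only [sub_eq_add_neg]
    exact measure_preimage_add_right volume (-c) _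
  rw [h1, Measure.addHaar_preimage_linearMap volume hdet, hinv, Real.volume_pi_Ico]

/-- Upper bound for the number of disjoint small regions inside a set of finite volume. -/
theorem vol_upper (T : (Fin N → ℝ) ≃ₗ[ℝ] (Fin N → ℝ)) (c : Fin N → ℝ) (K : ℕ) (hK : 1 ≤ K)
    (G : Finset (Fin N → ℤ)) (lo : Fin N → ℝ) (s : ℝ) (hs : 0 ≤ s)
    (hG : ∀ κ ∈ G, region T c (fun i => (κ i : ℝ) / K) (fun i => ((κ i : ℝ) + 1) / K) ⊆
      Set.Icc lo (fun i => lo i + s)) :
    (G.card : ℝ) * (|LinearMap.det (T : (Fin N → ℝ) →ₗ[ℝ] (Fin N → ℝ))| * (1 / (K : ℝ)) ^ N) ≤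
      s ^ N := by
  have hKpos : (0 : ℝ) < K := by exact_mod_cast hK
  set R : (Fin N → ℤ) → Set (Fin N → ℝ) := fun κ =>
    region T c (fun i => (κ i : ℝ) / K) (fun i => ((κ i : ℝ) + 1) / K) with hR
  have hdisj : (G : Set (Fin N → ℤ)).PairwiseDisjoint R := by
    intro κ _ κ' _ hne
    rw [Function.onFun, Set.disjoint_left]
    intro v hv hv'
    apply hne
    funext i
    have h1 := hv i
    have h2 := hv' i
    simp only at h1 h2
    rw [div_le_iff₀ hKpos, lt_div_iff₀ hKpos] at h1 h2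
    have h3 : (κ i : ℝ) < κ' i + 1 := by linarith
    have h4 : (κ' i : ℝ) < κ i + 1 := by linarith
    have h5 : κ i < κ' i + 1 := by exact_mod_cast h3
    have h6 : κ' i < κ i + 1 := by exact_mod_cast h4
    omega
  have h1 : volume (⋃ κ ∈ G, R κ) = ∑ κ ∈ G, volume (R κ) :=
    measure_biUnion_finset hdisj (fun κ _ => region_meas T c _ _)
  have h2 : volume (⋃ κ ∈ G, R κ) ≤ volume (Set.Icc lo (fun i => lo i + s)) :=
    measure_mono (Set.iUnion₂_subset hG)
  have h3 : ∀ κ, volume (R κ) =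
      ENNReal.ofReal (|LinearMap.det (T : (Fin N → ℝ) →ₗ[ℝ] (Fin N → ℝ))| * (1 / (K : ℝ)) ^ N) := by
    intro κ
    rw [hR]
    simp only
    rw [vol_region, ENNReal.ofReal_mul (abs_nonneg _)]
    congr 1
    have h4 : ∀ i : Fin N, ENNReal.ofReal (((κ i : ℝ) + 1) / K - (κ i : ℝ) / K) =
        ENNReal.ofReal (1 / K) := by
      intro i
      congr 1
      ring
    rw [Finset.prod_congr rfl (fun i _ => h4 i), Finset.prod_const, Finset.card_univ,
      Fintype.card_fin, ENNReal.ofReal_pow (by positivity)]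
  rw [h1, Finset.sum_congr rfl (fun κ _ => h3 κ), Finset.sum_const, nsmul_eq_mul,
    Real.volume_Icc_pi] at h2
  have h5 : ∏ i : Fin N, ENNReal.ofReal ((lo i + s) - lo i) = ENNReal.ofReal (s ^ N) := by
    rw [ENNReal.ofReal_pow hs]
    simp
  rw [h5, ← ENNReal.ofReal_natCast, ← ENNReal.ofReal_mul (by positivity),
    ENNReal.ofReal_le_ofReal_iff (by positivity)] at h2
  exact h2

/-- Lower bound for the number of small regions covering a cube. -/
theorem vol_lower (T : (Fin N → ℝ) ≃ₗ[ℝ] (Fin N → ℝ)) (c : Fin N → ℝ) (K : ℕ) (hK : 1 ≤ K)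
    (G : Finset (Fin N → ℤ)) (lo : Fin N → ℝ) (s : ℝ) (hs : 0 ≤ s)
    (hG : ∀ v : Fin N → ℝ, (∀ i, lo i ≤ v i ∧ v i < lo i + s) → ∃ κ ∈ G,
      v ∈ region T c (fun i => (κ i : ℝ) / K) (fun i => ((κ i : ℝ) + 1) / K)) :
    s ^ N ≤
    (G.card : ℝ) * (|LinearMap.det (T : (Fin N → ℝ) →ₗ[ℝ] (Fin N → ℝ))| * (1 / (K : ℝ)) ^ N) := by
  have hKpos : (0 : ℝ) < K := by exact_mod_cast hK
  set R : (Fin N → ℤ) → Set (Fin N → ℝ) := fun κ =>
    region T c (fun i => (κ i : ℝ) / K) (fun i => ((κ i : ℝ) + 1) / K) with hR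
  have h1 : volume (⋃ κ ∈ G, R κ) ≤ ∑ κ ∈ G, volume (R κ) := measure_biUnion_finset_le _ _
  have h2 : volume (Set.pi Set.univ fun i => Set.Ico (lo i) (lo i + s)) ≤
      volume (⋃ κ ∈ G, R κ) := by
    apply measure_mono
    intro v hv
    obtain ⟨κ, hκ, hv'⟩ := hG v (fun i => by
      have := hv i (Set.mem_univ i)
      exact ⟨this.1, this.2⟩)
    exact Set.mem_iUnion₂.mpr ⟨κ, hκ, hv'⟩
  have h3 : ∀ κ, volume (R κ) =
      ENNReal.ofReal (|LinearMap.det (T : (Fin N → ℝ) →ₗ[ℝ] (Fin N → ℝ))| * (1 / (K : ℝ)) ^ N) := by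
    intro κ
    rw [hR]
    simp only
    rw [vol_region, ENNReal.ofReal_mul (abs_nonneg _)]
    congr 1
    have h4 : ∀ i : Fin N, ENNReal.ofReal (((κ i : ℝ) + 1) / K - (κ i : ℝ) / K) =
        ENNReal.ofReal (1 / K) := by
      intro i
      congr 1
      ring
    rw [Finset.prod_congr rfl (fun i _ => h4 i), Finset.prod_const, Finset.card_univ,
      Fintype.card_fin, ENNReal.ofReal_pow (by positivity)]
  have h6 := h2.trans h1
  rw [Finset.sum_congr rfl (fun κ _ => h3 κ), Finset.sum_const, nsmul_eq_mul,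
    Real.volume_pi_Ico] at h6
  have h5 : ∏ i : Fin N, ENNReal.ofReal ((lo i + s) - lo i) = ENNReal.ofReal (s ^ N) := by
    rw [ENNReal.ofReal_pow hs]
    simp
  rw [h5, ← ENNReal.ofReal_natCast, ← ENNReal.ofReal_mul (by positivity),
    ENNReal.ofReal_le_ofReal_iff (by positivity)] at h6
  exact h6

/-- Upper bound for the determinant. -/
theorem det_le (T : (Fin N → ℝ) ≃ₗ[ℝ] (Fin N → ℝ)) (L : ℝ) (hL : 0 ≤ L)
    (hT : ∀ v, ‖T v‖ ≤ L * ‖v‖) :
    |LinearMap.det (T : (Fin N → ℝ) →ₗ[ℝ] (Fin N → ℝ))| ≤ L ^ N := by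
  have h1 : region T 0 (fun _ => -1) (fun _ => 1) ⊆
      Set.Icc (fun _ => -L) (fun _ => L) := by
    intro v hv
    have h2 : ‖T.symm v‖ ≤ 1 := by
      rw [pi_norm_le_iff_of_nonneg (by norm_num)]
      intro i
      have := hv i
      simp only [sub_zero] at this
      rw [Real.norm_eq_abs, abs_le]
      exact ⟨this.1, this.2.le⟩
    have h3 : ‖v‖ ≤ L := by
      have h4 := hT (T.symm v)
      rw [LinearEquiv.apply_symm_apply] at h4
      nlinarith [norm_nonneg (T.symm v)]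
    have h5 : ∀ i, |v i| ≤ L := fun i => by
      have := norm_le_pi_norm v i
      rw [Real.norm_eq_abs] at this
      linarith
    exact ⟨fun i => (abs_le.mp (h5 i)).1, fun i => (abs_le.mp (h5 i)).2⟩
  have h2 := measure_mono (μ := volume) h1
  rw [vol_region, Real.volume_Icc_pi] at h2
  have h3 : ∏ i : Fin N, ENNReal.ofReal ((1 : ℝ) - (-1)) = ENNReal.ofReal (2 ^ N) := by
    rw [ENNReal.ofReal_pow (by norm_num)]
    norm_num
  have h4 : ∏ i : Fin N, ENNReal.ofReal (L - (-L)) = ENNReal.ofReal ((2 * L) ^ N) := by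
    rw [ENNReal.ofReal_pow (by positivity), show L - -L = 2 * L by ring]
    simp
  rw [h3, h4, ← ENNReal.ofReal_mul (abs_nonneg _),
    ENNReal.ofReal_le_ofReal_iff (by positivity), mul_pow, mul_comm] at h2
  exact le_of_mul_le_mul_left h2 (by positivity)

end Vale.Agent.P011.H436
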