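import Mathlib
import Vale.Agent.P011.H73.CellSpec
import Vale.Agent.P011.H436.SkewVol

/-!
From skew windows to standard cubes.
-/

namespace Vale.Agent.P011.H436

open Finset
open Vale.Agent.P011.H73 (cube)

variable {N : ℕ}

theorem mem_cube {N X : ℕ} {y : Fin N → ℤ} : y ∈ cube N X ↔ ∀ i, 0 ≤ y i ∧ y i < X := by
  unfold cube
  simp [Fintype.mem_piFinset]

theorem cube_card (N X : ℕ) : (cube N X).card = X ^ N := by
  unfold cube
  rw [Fintype.card_piFinset]
  simp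

/-- Counting points of a cube with one coordinate in a given set. -/
theorem count_coord (N X : ℕ) (E : Finset ℤ) (hE : E ⊆ Finset.Ico 0 (X : ℤ)) (i : Fin N) :
    ((cube N X).filter (fun y => y i ∈ E)).card * X = E.card * X ^ N := by
  have h1 : (cube N X).filter (fun y => y i ∈ E) =
      Fintype.piFinset (Function.update (fun _ : Fin N => Finset.Ico 0 (X : ℤ)) i E) := by
    ext y
    rw [Finset.mem_filter, Fintype.mem_piFinset]
    constructor
    · rintro ⟨hy, hyi⟩ j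
      by_cases hj : j = i
      · subst hj
        rw [Function.update_self]
        exact hyi
      · rw [Function.update_of_ne hj]
        exact Finset.mem_Ico.mpr (mem_cube.mp hy j)
    · intro h
      have hi := h i
      rw [Function.update_self] at hi
      refine ⟨mem_cube.mpr ?_, hi⟩
      intro j
      by_cases hj : j = i
      · subst hj
        exact Finset.mem_Ico.mp (hE hi)
      · have := h j
        rw [Function.update_of_ne hj] at this
        exact Finset.mem_Ico.mp this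
  rw [h1, Fintype.card_piFinset]
  have h2 : ∀ j, (Function.update (fun _ : Fin N => Finset.Ico 0 (X : ℤ)) i E j).card =
      Function.update (fun _ : Fin N => X) i E.card j := by
    intro j
    by_cases hj : j = i
    · subst hj; simp
    · rw [Function.update_of_ne hj, Function.update_of_ne hj]; simp
  rw [Finset.prod_congr rfl (fun j _ => h2 j), Finset.prod_update_of_mem (Finset.mem_univ i)]
  rw [Finset.prod_const]
  have h3 : (univ \ {i} : Finset (Fin N)).card = N - 1 := by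
    rw [Finset.card_sdiff_of_subset (by simp)]
    simp
  have h4 : 1 ≤ N := by
    have := i.isLt
    omega
  rw [h3, mul_assoc, ← pow_succ, Nat.sub_add_cancel h4]

/-- Residues mod `s` near `0`. -/
noncomputable def nearSet (L s b : ℕ) : Finset ℤ :=
  (Finset.Ico 0 ((L * s : ℕ) : ℤ)).filter (fun t => t % (s : ℤ) < (b : ℤ) ∨ (s : ℤ) - (b : ℤ) ≤ t % (s : ℤ))

theorem nearSet_card (L s b : ℕ) (hs : 0 < s) : (nearSet L s b).card ≤ L * (2 * b) := by
  have hsz : (0 : ℤ) < s := by exact_mod_cast hs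
  have h1 : (nearSet L s b).card ≤
      ((Finset.Ico 0 (L : ℤ)) ×ˢ ((Finset.Ico 0 (b : ℤ)) ∪ Finset.Ico ((s : ℤ) - b) s)).card := by
    apply Finset.card_le_card_of_injOn (fun t : ℤ => (t / (s : ℤ), t % (s : ℤ)))
    · intro t ht
      have ht' := Finset.mem_filter.mp (Finset.mem_coe.mp ht)
      have h2 := Finset.mem_Ico.mp ht'.1
      have h3 := Int.emod_nonneg t hsz.ne'
      have h4 := Int.emod_lt_of_pos t hsz
      rw [Finset.mem_coe, Finset.mem_product, Finset.mem_union, Finset.mem_Ico, Finset.mem_Ico,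
        Finset.mem_Ico]
      refine ⟨⟨Int.ediv_nonneg h2.1 hsz.le, ?_⟩, ?_⟩
      · apply Int.ediv_lt_of_lt_mul hsz
        have := h2.2
        push_cast at this
        exact this
      · rcases ht'.2 with h | h
        · left; exact ⟨h3, h⟩
        · right; exact ⟨h, h4⟩
    · intro t _ t' _ h
      simp only [Prod.mk.injEq] at h
      have e1 := Int.emod_add_mul_ediv t s
      have e2 := Int.emod_add_mul_ediv t' s
      rw [← e1, ← e2, h.1, h.2]
  refine h1.trans ?_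
  rw [Finset.card_product, Int.card_Ico]
  have h5 : ((Finset.Ico 0 (b : ℤ)) ∪ Finset.Ico ((s : ℤ) - b) s).card ≤ 2 * b := by
    refine (Finset.card_union_le _ _).trans ?_
    rw [Int.card_Ico, Int.card_Ico]
    omega
  have h6 : ((L : ℤ) - 0).toNat = L := by omega
  rw [h6]
  exact Nat.mul_le_mul_left _ h5

/-- The number of points of the cube `[0, L s)^N` within `b` of the walls of the subcubes of
side `s`. -/
theorem near_count (N L s b : ℕ) (hs : 0 < s) (hL : 0 < L) :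
    (((cube N (L * s)).filter
      (fun y => ∃ i, y i % (s : ℤ) < (b : ℤ) ∨ (s : ℤ) - (b : ℤ) ≤ y i % (s : ℤ))).card : ℝ) ≤
      N * (2 * b / s) * ((L * s : ℕ) : ℝ) ^ N := by
  have hsr : (0 : ℝ) < s := by exact_mod_cast hs
  have hLr : (0 : ℝ) < L := by exact_mod_cast hL
  have h1 : (cube N (L * s)).filter
      (fun y => ∃ i, y i % (s : ℤ) < (b : ℤ) ∨ (s : ℤ) - (b : ℤ) ≤ y i % (s : ℤ)) ⊆
      univ.biUnion (fun i : Fin N => (cube N (L * s)).filter (fun y => y i ∈ nearSet L s b)) := by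
    intro y hy
    rw [Finset.mem_filter] at hy
    obtain ⟨hy, i, hi⟩ := hy
    rw [Finset.mem_biUnion]
    refine ⟨i, Finset.mem_univ i, Finset.mem_filter.mpr ⟨hy, ?_⟩⟩
    unfold nearSet
    rw [Finset.mem_filter, Finset.mem_Ico]
    exact ⟨mem_cube.mp hy i, hi⟩
  have h2 : ((((cube N (L * s)).filter
      (fun y => ∃ i, y i % (s : ℤ) < (b : ℤ) ∨ (s : ℤ) - (b : ℤ) ≤ y i % (s : ℤ))).card : ℕ) : ℝ) ≤
      ∑ i : Fin N, (((cube N (L * s)).filter (fun y => y i ∈ nearSet L s b)).card : ℝ) := by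
    have := (Finset.card_le_card h1).trans Finset.card_biUnion_le
    exact_mod_cast this
  refine h2.trans ?_
  have h3 : ∀ i : Fin N, (((cube N (L * s)).filter (fun y => y i ∈ nearSet L s b)).card : ℝ) ≤
      (2 * b / s) * ((L * s : ℕ) : ℝ) ^ N := by
    intro i
    have h4 := count_coord N (L * s) (nearSet L s b) (Finset.filter_subset _ _) i
    have h5 : (((cube N (L * s)).filter (fun y => y i ∈ nearSet L s b)).card : ℝ) *
        ((L * s : ℕ) : ℝ) = (nearSet L s b).card * ((L * s : ℕ) : ℝ) ^ N := by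
      exact_mod_cast h4
    have h6 : ((nearSet L s b).card : ℝ) ≤ L * (2 * b) := by
      exact_mod_cast nearSet_card L s b hs
    have hLs : (0 : ℝ) < ((L * s : ℕ) : ℝ) := by push_cast; positivity
    have h7 : (((cube N (L * s)).filter (fun y => y i ∈ nearSet L s b)).card : ℝ) =
        (nearSet L s b).card * ((L * s : ℕ) : ℝ) ^ N / ((L * s : ℕ) : ℝ) := by
      rw [eq_div_iff hLs.ne', h5]
    rw [h7, div_le_iff₀ hLs]
    calc ((nearSet L s b).card : ℝ) * ((L * s : ℕ) : ℝ) ^ N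
        ≤ (L * (2 * b)) * ((L * s : ℕ) : ℝ) ^ N := mul_le_mul_of_nonneg_right h6 (by positivity)
      _ = (2 * b / s) * ((L * s : ℕ) : ℝ) ^ N * ((L * s : ℕ) : ℝ) := by
          push_cast
          field_simp
  calc _ ≤ ∑ i : Fin N, (2 * b / s) * ((L * s : ℕ) : ℝ) ^ N := Finset.sum_le_sum (fun i _ => h3 i)
    _ = _ := by
      rw [Finset.sum_const, Finset.card_univ, Fintype.card_fin, nsmul_eq_mul]; ring

/-- Skew coordinates. -/
noncomputable def uu (T : (Fin N → ℝ) ≃ₗ[ℝ] (Fin N → ℝ)) (c : Fin N → ℝ) (x : Fin N → ℤ) :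
    Fin N → ℝ := T.symm (fun i => (x i : ℝ) - c i)

/-- The region of the small cell with index `κ`. -/
def rg (T : (Fin N → ℝ) ≃ₗ[ℝ] (Fin N → ℝ)) (c : Fin N → ℝ) (K : ℕ) (κ : Fin N → ℤ) :
    Set (Fin N → ℝ) :=
  region T c (fun i => (κ i : ℝ) / K) (fun i => ((κ i : ℝ) + 1) / K)

theorem rg_diam (T : (Fin N → ℝ) ≃ₗ[ℝ] (Fin N → ℝ)) (c : Fin N → ℝ) (K : ℕ) (hK : 0 < K)
    (L : ℝ) (hT : ∀ v, ‖T v‖ ≤ L * ‖v‖) (hL : 0 ≤ L) (κ : Fin N → ℤ) (v v' : Fin N → ℝ)
    (hv : v ∈ rg T c K κ) (hv' : v' ∈ rg T c K κ) (i : Fin N) : |v i - v' i| ≤ L / K := by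
  have hKr : (0 : ℝ) < K := by exact_mod_cast hK
  have h1 : ‖T.symm (v - c) - T.symm (v' - c)‖ ≤ 1 / K := by
    rw [pi_norm_le_iff_of_nonneg (by positivity)]
    intro j
    have e1 := hv j
    have e2 := hv' j
    simp only at e1 e2
    have e3 : ((κ j : ℝ) + 1) / K = (κ j : ℝ) / K + 1 / K := by ring
    rw [e3] at e1 e2
    rw [Pi.sub_apply, Real.norm_eq_abs, abs_le]
    constructor <;> linarith
  have h2 : v - v' = T (T.symm (v - c) - T.symm (v' - c)) := by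
    rw [map_sub, LinearEquiv.apply_symm_apply, LinearEquiv.apply_symm_apply]
    abel
  have h3 : ‖v - v'‖ ≤ L / K := by
    rw [h2]
    refine (hT _).trans ?_
    calc L * ‖T.symm (v - c) - T.symm (v' - c)‖ ≤ L * (1 / K) := mul_le_mul_of_nonneg_left h1 hL
      _ = L / K := by ring
  have h4 := norm_le_pi_norm (v - v') i
  rw [Pi.sub_apply, Real.norm_eq_abs] at h4
  exact h4.trans h3

theorem mem_rg_of_floor (T : (Fin N → ℝ) ≃ₗ[ℝ] (Fin N → ℝ)) (c : Fin N → ℝ) (K : ℕ)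
    (hK : 0 < K) (v : Fin N → ℝ) :
    v ∈ rg T c K (fun i => ⌊(K : ℝ) * T.symm (v - c) i⌋) := by
  have hKr : (0 : ℝ) < K := by exact_mod_cast hK
  intro i
  constructor
  · simp only
    rw [div_le_iff₀ hKr, mul_comm]
    exact Int.floor_le _
  · simp only
    rw [lt_div_iff₀ hKr, mul_comm]
    exact Int.lt_floor_add_one _

/-- Corner of a cell. -/
theorem corner_mem (T : (Fin N → ℝ) ≃ₗ[ℝ] (Fin N → ℝ)) (c : Fin N → ℝ) (K : ℕ)
    (hK : 0 < K) (κ : Fin N → ℤ) :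
    T (fun i => (κ i : ℝ) / K) + c ∈ rg T c K κ := by
  have hKr : (0 : ℝ) < K := by exact_mod_cast hK
  intro i
  rw [add_sub_cancel_right, LinearEquiv.symm_apply_apply]
  refine ⟨le_rfl, ?_⟩
  simp only
  rw [div_lt_div_iff_of_pos_right hKr]
  linarith

/-- The standard subcube with index `k`. -/
def sq (z : Fin N → ℤ) (s : ℕ) (k : Fin N → ℤ) : Set (Fin N → ℝ) :=
  {v | ∀ i, (z i : ℝ) + s * k i ≤ v i ∧ v i < z i + s * (k i + 1)}

open Classical in
/-- Cells contained in a given standard subcube. -/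
noncomputable def Gk (T : (Fin N → ℝ) ≃ₗ[ℝ] (Fin N → ℝ)) (c : Fin N → ℝ) (K : ℕ)
    (z : Fin N → ℤ) (s : ℕ) (k : Fin N → ℤ) : Finset (Fin N → ℤ) :=
  (cube N K).filter (fun κ => rg T c K κ ⊆ sq z s k)

theorem mem_Gk {T : (Fin N → ℝ) ≃ₗ[ℝ] (Fin N → ℝ)} {c : Fin N → ℝ} {K : ℕ}
    {z : Fin N → ℤ} {s : ℕ} {k κ : Fin N → ℤ} :
    κ ∈ Gk T c K z s k ↔ κ ∈ cube N K ∧ rg T c K κ ⊆ sq z s k := by
  simp only [Gk, Finset.mem_filter]

theorem Gk_disj (T : (Fin N → ℝ) ≃ₗ[ℝ] (Fin N → ℝ)) (c : Fin N → ℝ) (K : ℕ) (hK : 0 < K)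
    (z : Fin N → ℤ) (s : ℕ) (hs : 0 < s) (k k' : Fin N → ℤ) (κ : Fin N → ℤ)
    (h : κ ∈ Gk T c K z s k) (h' : κ ∈ Gk T c K z s k') : k = k' := by
  have hsr : (0 : ℝ) < s := by exact_mod_cast hs
  have h1 := (mem_Gk.mp h).2 (corner_mem T c K hK κ)
  have h2 := (mem_Gk.mp h').2 (corner_mem T c K hK κ)
  funext i
  have e1 := h1 i
  have e2 := h2 i
  have e3 : (s : ℝ) * k i < s * (k' i + 1) := by linarith
  have e4 : (s : ℝ) * k' i < s * (k i + 1) := by linarith
  have e5 := lt_of_mul_lt_mul_left e3 hsr.le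
  have e6 := lt_of_mul_lt_mul_left e4 hsr.le
  have e7 : k i < k' i + 1 := by exact_mod_cast e5
  have e8 : k' i < k i + 1 := by exact_mod_cast e6
  omega

theorem Gk_card_le (T : (Fin N → ℝ) ≃ₗ[ℝ] (Fin N → ℝ)) (c : Fin N → ℝ) (K : ℕ) (hK : 0 < K)
    (z : Fin N → ℤ) (s : ℕ) (k : Fin N → ℤ) :
    ((Gk T c K z s k).card : ℝ) *
      (|LinearMap.det (T : (Fin N → ℝ) →ₗ[ℝ] (Fin N → ℝ))| * (1 / (K : ℝ)) ^ N) ≤
      (s : ℝ) ^ N := by
  apply vol_upper T c K hK (Gk T c K z s k) (fun i => (z i : ℝ) + s * k i) s (Nat.cast_nonneg s)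
  intro κ hκ v hv
  have h := (mem_Gk.mp hκ).2 hv
  constructor
  · intro i
    exact (h i).1
  · intro i
    have := (h i).2
    simp only
    linarith

theorem Gk_card_ge (T : (Fin N → ℝ) ≃ₗ[ℝ] (Fin N → ℝ)) (c : Fin N → ℝ) (K : ℕ) (hK : 0 < K)
    (L : ℝ) (hT : ∀ v, ‖T v‖ ≤ L * ‖v‖) (hL : 0 ≤ L)
    (z : Fin N → ℤ) (s : ℕ) (k : Fin N → ℤ) (b : ℕ) (hb : L / K ≤ b) (hbs : 2 * b < s)
    (hk : ∀ v : Fin N → ℝ, v ∈ sq z s k → ∀ i, 0 ≤ T.symm (v - c) i ∧ T.symm (v - c) i < 1) :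
    ((s : ℝ) - 2 * b) ^ N ≤ ((Gk T c K z s k).card : ℝ) *
      (|LinearMap.det (T : (Fin N → ℝ) →ₗ[ℝ] (Fin N → ℝ))| * (1 / (K : ℝ)) ^ N) := by
  have hKr : (0 : ℝ) < K := by exact_mod_cast hK
  have hbs' : 2 * (b : ℝ) < s := by exact_mod_cast hbs
  have hb0 : (0 : ℝ) ≤ b := Nat.cast_nonneg b
  apply vol_lower T c K hK (Gk T c K z s k) (fun i => (z i : ℝ) + s * k i + b)
    ((s : ℝ) - 2 * b) (by linarith)
  intro v hv
  refine ⟨fun i => ⌊(K : ℝ) * T.symm (v - c) i⌋, ?_, mem_rg_of_floor T c K hK v⟩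
  have hvsq : v ∈ sq z s k := by
    intro i
    have := hv i
    constructor <;> linarith [this.1, this.2]
  refine mem_Gk.mpr ⟨mem_cube.mpr ?_, ?_⟩
  · intro i
    have h1 := hk v hvsq i
    constructor
    · apply Int.floor_nonneg.mpr
      exact mul_nonneg hKr.le h1.1
    · rw [Int.floor_lt]
      push_cast
      nlinarith
  · intro v' hv' i
    have h1 := rg_diam T c K hK L hT hL _ v v' (mem_rg_of_floor T c K hK v) hv' i
    have h2 := hv i
    have h3 := abs_le.mp h1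
    constructor <;> linarith [h2.1, h2.2, h3.1, h3.2]

/-- Sum over a skew cell. -/
noncomputable def cw (T : (Fin N → ℝ) ≃ₗ[ℝ] (Fin N → ℝ)) (c : Fin N → ℝ)
    (W : Finset (Fin N → ℤ)) (q K : ℕ) (a : (Fin N → ℤ) → ℝ) (r κ : Fin N → ℤ) : ℝ :=
  ∑ x ∈ W with (∀ i, x i % (q : ℤ) = r i ∧ ⌊(K : ℝ) * uu T c x i⌋ = κ i), a x

/-- Sum over a standard cell. -/
noncomputable def cs (N q L s : ℕ) (z : Fin N → ℤ) (a : (Fin N → ℤ) → ℝ)
    (r k : Fin N → ℤ) : ℝ :=
  ∑ y ∈ cube N (L * s) with (∀ i, y i % (q : ℤ) = r i ∧ y i / (s : ℤ) = k i), a (z + y)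

theorem uu_eq (T : (Fin N → ℝ) ≃ₗ[ℝ] (Fin N → ℝ)) (c : Fin N → ℝ) (x : Fin N → ℤ) :
    uu T c x = T.symm ((fun i => (x i : ℝ)) - c) := rfl

section core

variable (T : (Fin N → ℝ) ≃ₗ[ℝ] (Fin N → ℝ)) (c : Fin N → ℝ) (q L K s b : ℕ)
  (W : Finset (Fin N → ℤ)) (z : Fin N → ℤ) (a : (Fin N → ℤ) → ℝ)

/-- The part of a standard cell covered by one contained skew cell. -/
theorem cell_part (hK : 0 < K) (hs : 0 < s) (hz : ∀ i, (q : ℤ) ∣ z i)
    (hin : ∀ y ∈ cube N (L * s), z + y ∈ W) (r k κ : Fin N → ℤ) (hk : k ∈ cube N L)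
    (hκ : κ ∈ Gk T c K z s k) :
    ∑ y ∈ cube N (L * s) with ((∀ i, y i % (q : ℤ) = r i ∧ y i / (s : ℤ) = k i) ∧
      (fun i => ⌊(K : ℝ) * uu T c (z + y) i⌋) = κ), a (z + y) = cw T c W q K a r κ := by
  classical
  have hsz : (0 : ℤ) < s := by exact_mod_cast hs
  unfold cw
  apply Finset.sum_nbij' (fun y => z + y) (fun x => x - z)
  · intro y hy
    rw [Finset.mem_filter] at hy ⊢
    obtain ⟨hy, h1, h2⟩ := hy
    refine ⟨hin y hy, fun i => ⟨?_, ?_⟩⟩
    · rw [← (h1 i).1, Pi.add_apply]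
      obtain ⟨t, ht⟩ := hz i
      rw [ht, add_comm, Int.add_mul_emod_self_left]
    · exact congrFun h2 i
  · intro x hx
    rw [Finset.mem_filter] at hx ⊢
    obtain ⟨hxW, hx⟩ := hx
    have h1 : (fun i => (x i : ℝ)) ∈ rg T c K κ := by
      have h2 := mem_rg_of_floor T c K hK (fun i => (x i : ℝ))
      have h3 : (fun i => ⌊(K : ℝ) * T.symm ((fun i => (x i : ℝ)) - c) i⌋) = κ := by
        funext i
        exact (hx i).2
      rw [h3] at h2
      exact h2
    have h4 := (mem_Gk.mp hκ).2 h1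
    have h5 : ∀ i, (s : ℤ) * k i ≤ x i - z i ∧ x i - z i < s * (k i + 1) := by
      intro i
      have e := h4 i
      have e1 : ((z i + s * k i : ℤ) : ℝ) ≤ (x i : ℝ) := by push_cast; exact e.1
      have e2 : (x i : ℝ) < ((z i + s * (k i + 1) : ℤ) : ℝ) := by push_cast; exact e.2
      have e3 : z i + s * k i ≤ x i := by exact_mod_cast e1
      have e4 : x i < z i + s * (k i + 1) := by exact_mod_cast e2
      constructor <;> linarith
    refine ⟨?_, fun i => ⟨?_, ?_⟩, ?_⟩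
    · rw [mem_cube]
      intro i
      have hki := mem_cube.mp hk i
      rw [Pi.sub_apply]
      have e := h5 i
      push_cast
      constructor
      · nlinarith
      · nlinarith
    · rw [Pi.sub_apply, ← (hx i).1]
      obtain ⟨t, ht⟩ := hz i
      rw [ht, Int.sub_mul_emod_self_left]
    · rw [Pi.sub_apply]
      have e := h5 i
      apply le_antisymm
      · have : (x i - z i) / (s : ℤ) < k i + 1 := Int.ediv_lt_of_lt_mul hsz (by linarith)
        omega
      · exact Int.le_ediv_of_mul_le hsz (by linarith)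
    · rw [add_sub_cancel]
      funext i
      exact (hx i).2
  · intro y _
    simp
  · intro x _
    simp
  · intro y _
    rfl

/-- Points of a standard cell not covered by a contained skew cell are near the walls. -/
theorem near_of_not_mem (hK : 0 < K) (hs : 0 < s) (X : ℝ) (hX : 0 ≤ X)
    (hT : ∀ v, ‖T v‖ ≤ X * ‖v‖) (hb : X / K ≤ b)
    (hW : ∀ x, x ∈ W ↔ ∀ i, 0 ≤ uu T c x i ∧ uu T c x i < 1)
    (hin : ∀ y ∈ cube N (L * s), z + y ∈ W) (k y : Fin N → ℤ) (hy : y ∈ cube N (L * s))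
    (hyk : ∀ i, y i / (s : ℤ) = k i)
    (hnot : (fun i => ⌊(K : ℝ) * uu T c (z + y) i⌋) ∉ Gk T c K z s k) :
    ∃ i, y i % (s : ℤ) < (b : ℤ) ∨ (s : ℤ) - (b : ℤ) ≤ y i % (s : ℤ) := by
  have hKr : (0 : ℝ) < K := by exact_mod_cast hK
  have hyW := (hW _).mp (hin y hy)
  have h1 : (fun i => ⌊(K : ℝ) * uu T c (z + y) i⌋) ∈ cube N K := by
    rw [mem_cube]
    intro i
    have := hyW i
    constructor
    · exact Int.floor_nonneg.mpr (mul_nonneg hKr.le this.1)
    · rw [Int.floor_lt]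
      push_cast
      nlinarith
  have h2 : ¬ rg T c K (fun i => ⌊(K : ℝ) * uu T c (z + y) i⌋) ⊆ sq z s k := by
    intro h
    exact hnot (mem_Gk.mpr ⟨h1, h⟩)
  obtain ⟨v, hv, hvn⟩ := Set.not_subset.mp h2
  have h3 : (fun i => (((z + y) i : ℤ) : ℝ)) ∈ rg T c K (fun i => ⌊(K : ℝ) * uu T c (z + y) i⌋) :=
    mem_rg_of_floor T c K hK _
  have h4 : ∃ i, ¬ ((z i : ℝ) + s * k i ≤ v i ∧ v i < z i + s * (k i + 1)) := by
    by_contra hcon
    simp only [not_exists, not_not] at hcon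
    exact hvn hcon
  obtain ⟨i, hi⟩ := h4
  refine ⟨i, ?_⟩
  have h5 := abs_le.mp (rg_diam T c K hK X hT hX _ _ v h3 hv i)
  simp only [Pi.add_apply, Int.cast_add] at h5
  have h6 : y i % (s : ℤ) = y i - s * k i := by
    rw [← hyk i]
    have := Int.emod_add_mul_ediv (y i) s
    linarith
  rw [h6]
  by_cases hlow : (z i : ℝ) + s * k i ≤ v i
  · have hhi : (z i : ℝ) + s * (k i + 1) ≤ v i := by
      by_contra hcon
      exact hi ⟨hlow, not_le.mp hcon⟩
    right
    have h7 : (((s : ℤ) - b : ℤ) : ℝ) ≤ ((y i - s * k i : ℤ) : ℝ) := by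
      push_cast
      linarith [h5.1, h5.2]
    exact_mod_cast h7
  · left
    have hlt := not_le.mp hlow
    have h7 : ((y i - s * k i : ℤ) : ℝ) < ((b : ℤ) : ℝ) := by
      push_cast
      linarith [h5.1, h5.2]
    exact_mod_cast h7

/-- Decomposition of a standard cell sum. -/
theorem cs_decomp (hK : 0 < K) (hs : 0 < s) (hz : ∀ i, (q : ℤ) ∣ z i)
    (hin : ∀ y ∈ cube N (L * s), z + y ∈ W) (r k : Fin N → ℤ) (hk : k ∈ cube N L) :
    cs N q L s z a r k = ∑ κ ∈ Gk T c K z s k, cw T c W q K a r κ +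
      ∑ y ∈ cube N (L * s) with ((∀ i, y i % (q : ℤ) = r i ∧ y i / (s : ℤ) = k i) ∧
        (fun i => ⌊(K : ℝ) * uu T c (z + y) i⌋) ∉ Gk T c K z s k), a (z + y) := by
  classical
  unfold cs
  rw [← Finset.sum_filter_add_sum_filter_not _
    (fun y => (fun i => ⌊(K : ℝ) * uu T c (z + y) i⌋) ∈ Gk T c K z s k)]
  rw [Finset.filter_filter, Finset.filter_filter]
  congr 1
  rw [← Finset.sum_fiberwise_of_maps_to (s := {y ∈ cube N (L * s) |
      (∀ i, y i % (q : ℤ) = r i ∧ y i / (s : ℤ) = k i) ∧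
        (fun i => ⌊(K : ℝ) * uu T c (z + y) i⌋) ∈ Gk T c K z s k})
    (t := Gk T c K z s k) (g := fun y => (fun i => ⌊(K : ℝ) * uu T c (z + y) i⌋))
    (fun y hy => (Finset.mem_filter.mp hy).2.2)]
  apply Finset.sum_congr rfl
  intro κ hκ
  rw [← cell_part T c q L K s W z a hK hs hz hin r k κ hk hκ, Finset.filter_filter]
  apply Finset.sum_congr _ (fun _ _ => rfl)
  apply Finset.filter_congr
  intro y _
  constructor
  · rintro ⟨⟨h1, _⟩, h3⟩
    exact ⟨h1, h3⟩
  · rintro ⟨h1, h3⟩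
    exact ⟨⟨h1, by rw [h3]; exact hκ⟩, h3⟩

open Classical in
/-- A point lies in at most one cell. -/
theorem one_cell (y : Fin N → ℤ) (S₁ S₂ : Finset (Fin N → ℤ)) :
    ∑ r ∈ S₁, ∑ k ∈ S₂,
      (if (∀ i, y i % (q : ℤ) = r i ∧ y i / (s : ℤ) = k i) then (1 : ℝ) else 0) ≤ 1 := by
  have h2 : ∀ r ∈ S₁, ∑ k ∈ S₂,
      (if (∀ i, y i % (q : ℤ) = r i ∧ y i / (s : ℤ) = k i) then (1 : ℝ) else 0) ≤
      if r = (fun i => y i % (q : ℤ)) then (1 : ℝ) else 0 := by
    intro r _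
    by_cases h4 : r = (fun i => y i % (q : ℤ))
    · rw [if_pos h4]
      calc _ ≤ ∑ k ∈ S₂, if k = (fun i => y i / (s : ℤ)) then (1 : ℝ) else 0 := by
            apply Finset.sum_le_sum
            intro k _
            by_cases h3 : ∀ i, y i % (q : ℤ) = r i ∧ y i / (s : ℤ) = k i
            · rw [if_pos h3, if_pos (funext fun i => (h3 i).2.symm)]
            · rw [if_neg h3]
              split_ifs <;> norm_num
        _ ≤ 1 := by
            rw [Finset.sum_ite_eq']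
            split_ifs <;> norm_num
    · rw [if_neg h4]
      apply Finset.sum_nonpos
      intro k _
      rw [if_neg]
      intro h3
      exact h4 (funext fun i => (h3 i).1.symm)
  refine (Finset.sum_le_sum h2).trans ?_
  rw [Finset.sum_ite_eq']
  split_ifs <;> norm_num

/-- The core estimate. -/
theorem skew_core (hq : 0 < q) (hL : 0 < L) (hK : 0 < K) (hs : 0 < s) (X : ℝ) (hX : 0 ≤ X)
    (hT : ∀ v, ‖T v‖ ≤ X * ‖v‖) (hb : X / K ≤ b) (hbs : 2 * b < s)
    (hW : ∀ x, x ∈ W ↔ ∀ i, 0 ≤ uu T c x i ∧ uu T c x i < 1) (hz : ∀ i, (q : ℤ) ∣ z i)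
    (hin : ∀ v : Fin N → ℝ, (∀ i, (z i : ℝ) ≤ v i ∧ v i < z i + L * s) →
      ∀ i, 0 ≤ T.symm (v - c) i ∧ T.symm (v - c) i < 1)
    (ha : ∀ x, 0 ≤ a x ∧ a x ≤ 1) (d : ℝ) (hd0 : 0 ≤ d) (hd1 : d ≤ 1) :
    ∑ r ∈ cube N q, ∑ k ∈ cube N L, |cs N q L s z a r k - d * ((s : ℝ) / q) ^ N| ≤
      ∑ r ∈ cube N q, ∑ κ ∈ cube N K, |cw T c W q K a r κ -
        d * |LinearMap.det (T : (Fin N → ℝ) →ₗ[ℝ] (Fin N → ℝ))| / ((q : ℝ) * K) ^ N| +
      (N * (2 * b / s) * ((L * s : ℕ) : ℝ) ^ N +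
        (L : ℝ) ^ N * ((s : ℝ) ^ N - ((s : ℝ) - 2 * b) ^ N)) := by
  classical
  have hqr : (0 : ℝ) < q := by exact_mod_cast hq
  have hLr : (0 : ℝ) < L := by exact_mod_cast hL
  have hKr : (0 : ℝ) < K := by exact_mod_cast hK
  have hsr : (0 : ℝ) < s := by exact_mod_cast hs
  set Δ : ℝ := |LinearMap.det (T : (Fin N → ℝ) →ₗ[ℝ] (Fin N → ℝ))| with hΔ
  -- integer points of the cube are in the window
  have hinZ : ∀ y ∈ cube N (L * s), z + y ∈ W := by
    intro y hy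
    rw [hW]
    intro i
    apply hin (fun i => (((z + y) i : ℤ) : ℝ))
    intro j
    have h1 := mem_cube.mp hy j
    have h2 : (0 : ℝ) ≤ y j := by exact_mod_cast h1.1
    have h3 : (y j : ℝ) < ((L * s : ℕ) : ℤ) := by exact_mod_cast h1.2
    push_cast at h3
    simp only [Pi.add_apply, Int.cast_add]
    constructor <;> linarith
  have hsqin : ∀ k ∈ cube N L, ∀ v : Fin N → ℝ, v ∈ sq z s k →
      ∀ i, 0 ≤ T.symm (v - c) i ∧ T.symm (v - c) i < 1 := by
    intro k hk v hv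
    apply hin
    intro i
    have h1 := mem_cube.mp hk i
    have h2 := hv i
    have h3 : (0 : ℝ) ≤ k i := by exact_mod_cast h1.1
    have h4 : (k i : ℝ) + 1 ≤ L := by exact_mod_cast h1.2
    constructor
    · have : 0 ≤ (s : ℝ) * k i := by positivity
      linarith [h2.1]
    · have : (s : ℝ) * (k i + 1) ≤ s * L := mul_le_mul_of_nonneg_left h4 hsr.le
      linarith [h2.2]
  set Bd : (Fin N → ℤ) → (Fin N → ℤ) → ℝ := fun r k =>
    ∑ y ∈ cube N (L * s) with ((∀ i, y i % (q : ℤ) = r i ∧ y i / (s : ℤ) = k i) ∧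
        (fun i => ⌊(K : ℝ) * uu T c (z + y) i⌋) ∉ Gk T c K z s k), a (z + y) with hBd
  set dc : ℝ := d * Δ / ((q : ℝ) * K) ^ N with hdc
  -- pointwise inequality
  have hpt : ∀ r ∈ cube N q, ∀ k ∈ cube N L, |cs N q L s z a r k - d * ((s : ℝ) / q) ^ N| ≤
      ∑ κ ∈ Gk T c K z s k, |cw T c W q K a r κ - dc| + Bd r k +
        ((s : ℝ) ^ N - ((s : ℝ) - 2 * b) ^ N) / (q : ℝ) ^ N := by
    intro r _ k hk
    rw [cs_decomp T c q L K s W z a hK hs hz hinZ r k hk]
    have hBd0 : 0 ≤ Bd r k := Finset.sum_nonneg (fun y _ => (ha _).1)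
    have h1 : ∑ κ ∈ Gk T c K z s k, cw T c W q K a r κ + Bd r k - d * ((s : ℝ) / q) ^ N =
        ∑ κ ∈ Gk T c K z s k, (cw T c W q K a r κ - dc) + Bd r k +
          ((Gk T c K z s k).card * dc - d * ((s : ℝ) / q) ^ N) := by
      rw [Finset.sum_sub_distrib, Finset.sum_const, nsmul_eq_mul]
      ring
    have h2 : |((Gk T c K z s k).card : ℝ) * dc - d * ((s : ℝ) / q) ^ N| ≤
        ((s : ℝ) ^ N - ((s : ℝ) - 2 * b) ^ N) / (q : ℝ) ^ N := by
      have h3 := Gk_card_le T c K hK z s k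
      have h4 := Gk_card_ge T c K hK X hT hX z s k b hb hbs (hsqin k hk)
      have h5 : ((Gk T c K z s k).card : ℝ) * dc - d * ((s : ℝ) / q) ^ N =
          d * (((Gk T c K z s k).card : ℝ) * (Δ * (1 / (K : ℝ)) ^ N) - (s : ℝ) ^ N) /
            (q : ℝ) ^ N := by
        rw [hdc, mul_pow, div_pow, div_pow, one_pow]
        field_simp
      rw [h5, abs_div, abs_of_pos (by positivity : (0 : ℝ) < (q : ℝ) ^ N)]
      apply div_le_div_of_nonneg_right _ (by positivity)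
      rw [abs_mul, abs_of_nonneg hd0]
      have h6 : |((Gk T c K z s k).card : ℝ) * (Δ * (1 / (K : ℝ)) ^ N) - (s : ℝ) ^ N| ≤
          (s : ℝ) ^ N - ((s : ℝ) - 2 * b) ^ N := by
        rw [abs_le]
        constructor
        · linarith
        · have : ((s : ℝ) - 2 * b) ^ N ≤ (s : ℝ) ^ N := by linarith
          linarith
      calc d * |((Gk T c K z s k).card : ℝ) * (Δ * (1 / (K : ℝ)) ^ N) - (s : ℝ) ^ N|
          ≤ 1 * ((s : ℝ) ^ N - ((s : ℝ) - 2 * b) ^ N) :=
            mul_le_mul hd1 h6 (abs_nonneg _) zero_le_one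
        _ = _ := one_mul _
    calc _ = |∑ κ ∈ Gk T c K z s k, (cw T c W q K a r κ - dc) + Bd r k +
          ((Gk T c K z s k).card * dc - d * ((s : ℝ) / q) ^ N)| := by rw [← h1]
      _ ≤ |∑ κ ∈ Gk T c K z s k, (cw T c W q K a r κ - dc) + Bd r k| +
          |((Gk T c K z s k).card : ℝ) * dc - d * ((s : ℝ) / q) ^ N| := abs_add_le _ _
      _ ≤ (|∑ κ ∈ Gk T c K z s k, (cw T c W q K a r κ - dc)| + |Bd r k|) +
          ((s : ℝ) ^ N - ((s : ℝ) - 2 * b) ^ N) / (q : ℝ) ^ N :=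
          add_le_add (abs_add_le _ _) h2
      _ ≤ _ := by
          rw [abs_of_nonneg hBd0]
          have := Finset.abs_sum_le_sum_abs (fun κ => cw T c W q K a r κ - dc)
            (Gk T c K z s k)
          linarith
  -- sum of the first terms
  have hS1 : ∑ r ∈ cube N q, ∑ k ∈ cube N L, ∑ κ ∈ Gk T c K z s k,
      |cw T c W q K a r κ - dc| ≤
      ∑ r ∈ cube N q, ∑ κ ∈ cube N K, |cw T c W q K a r κ - dc| := by
    apply Finset.sum_le_sum
    intro r _
    rw [← Finset.sum_biUnion]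
    · apply Finset.sum_le_sum_of_subset_of_nonneg
      · intro κ hκ
        obtain ⟨k, _, hκ⟩ := Finset.mem_biUnion.mp hκ
        exact (mem_Gk.mp hκ).1
      · intro _ _ _
        exact abs_nonneg _
    · intro k _ k' _ hne
      rw [Function.onFun, Finset.disjoint_left]
      intro κ h h'
      exact hne (Gk_disj T c K hK z s hs k k' κ h h')
  -- sum of the boundary terms
  have hS2 : ∑ r ∈ cube N q, ∑ k ∈ cube N L, Bd r k ≤
      N * (2 * b / s) * ((L * s : ℕ) : ℝ) ^ N := by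
    refine le_trans ?_ (near_count N L s b hs hL)
    set NS : Finset (Fin N → ℤ) := (cube N (L * s)).filter
      (fun y => ∃ i, y i % (s : ℤ) < (b : ℤ) ∨ (s : ℤ) - (b : ℤ) ≤ y i % (s : ℤ)) with hNS
    have h1 : ∀ r k, Bd r k ≤
        ∑ y ∈ NS, if (∀ i, y i % (q : ℤ) = r i ∧ y i / (s : ℤ) = k i) then (1 : ℝ) else 0 := by
      intro r k
      rw [← Finset.sum_filter]
      calc Bd r k ≤ ∑ y ∈ cube N (L * s) with
            ((∀ i, y i % (q : ℤ) = r i ∧ y i / (s : ℤ) = k i) ∧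
            (fun i => ⌊(K : ℝ) * uu T c (z + y) i⌋) ∉ Gk T c K z s k), (1 : ℝ) :=
            Finset.sum_le_sum (fun y _ => (ha _).2)
        _ ≤ _ := by
            apply Finset.sum_le_sum_of_subset_of_nonneg
            · intro y hy
              rw [Finset.mem_filter] at hy ⊢
              obtain ⟨hy, h1, h2⟩ := hy
              refine ⟨Finset.mem_filter.mpr ⟨hy, ?_⟩, h1⟩
              exact near_of_not_mem T c L K s b W z hK hs X hX hT hb hW hinZ k y hy
                (fun i => (h1 i).2) h2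
            · intro _ _ _
              norm_num
    calc ∑ r ∈ cube N q, ∑ k ∈ cube N L, Bd r k
        ≤ ∑ r ∈ cube N q, ∑ k ∈ cube N L, ∑ y ∈ NS,
          (if (∀ i, y i % (q : ℤ) = r i ∧ y i / (s : ℤ) = k i) then (1 : ℝ) else 0) :=
          Finset.sum_le_sum (fun r _ => Finset.sum_le_sum (fun k _ => h1 r k))
      _ = ∑ y ∈ NS, ∑ r ∈ cube N q, ∑ k ∈ cube N L,
          (if (∀ i, y i % (q : ℤ) = r i ∧ y i / (s : ℤ) = k i) then (1 : ℝ) else 0) := by
          rw [Finset.sum_congr rfl (fun r (_ : r ∈ cube N q) => Finset.sum_comm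
            (s := cube N L) (t := NS) (f := fun k y =>
              if (∀ i, y i % (q : ℤ) = r i ∧ y i / (s : ℤ) = k i) then (1 : ℝ) else 0)),
            Finset.sum_comm]
      _ ≤ ∑ y ∈ NS, (1 : ℝ) := by
          apply Finset.sum_le_sum
          intro y _
          exact one_cell q s y _ _
      _ = (NS.card : ℝ) := by simp
  -- the volume term
  have hS3 : ∑ r ∈ cube N q, ∑ k ∈ cube N L,
      ((s : ℝ) ^ N - ((s : ℝ) - 2 * b) ^ N) / (q : ℝ) ^ N =
      (L : ℝ) ^ N * ((s : ℝ) ^ N - ((s : ℝ) - 2 * b) ^ N) := by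
    rw [Finset.sum_const, Finset.sum_const, cube_card, cube_card, nsmul_eq_mul, nsmul_eq_mul]
    push_cast
    field_simp
  calc _ ≤ ∑ r ∈ cube N q, ∑ k ∈ cube N L,
        (∑ κ ∈ Gk T c K z s k, |cw T c W q K a r κ - dc| + Bd r k +
        ((s : ℝ) ^ N - ((s : ℝ) - 2 * b) ^ N) / (q : ℝ) ^ N) :=
        Finset.sum_le_sum (fun r hr => Finset.sum_le_sum (fun k hk => hpt r hr k hk))
    _ = ∑ r ∈ cube N q, ∑ k ∈ cube N L, ∑ κ ∈ Gk T c K z s k, |cw T c W q K a r κ - dc| +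
        ∑ r ∈ cube N q, ∑ k ∈ cube N L, Bd r k +
        ∑ r ∈ cube N q, ∑ k ∈ cube N L,
          ((s : ℝ) ^ N - ((s : ℝ) - 2 * b) ^ N) / (q : ℝ) ^ N := by
        simp only [Finset.sum_add_distrib]
    _ ≤ _ := by
        rw [hS3]
        linarith

end core

/-- The numerical part of the final estimate. -/
theorem final_est (N L s b : ℕ) (η η' C X Δ : ℝ) (hη : 0 < η) (hη'0 : 0 < η') (hη'le : η' ≤ η)
    (hC : 1 ≤ C) (hL : 0 < L) (hs : 0 < s) (hX : 0 < X) (hdet : Δ ≤ (C * X) ^ N)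
    (hLs_ge : X / (8 * C) ≤ (L : ℝ) * s) (hbs : (b : ℝ) ≤ η' / (8 * (N + 1)) * s)
    (hbs2 : 2 * b < s) :
    η / (2 * (8 * C ^ 2) ^ N) * Δ + (N * (2 * b / s) * ((L * s : ℕ) : ℝ) ^ N +
        (L : ℝ) ^ N * ((s : ℝ) ^ N - ((s : ℝ) - 2 * b) ^ N)) ≤ η * ((L * s : ℕ) : ℝ) ^ N := by
  have hsr : (0 : ℝ) < s := by exact_mod_cast hs
  have hLr : (0 : ℝ) < L := by exact_mod_cast hL
  have hCpos : (0 : ℝ) < C := by linarith
  have hLsN : (0 : ℝ) < ((L * s : ℕ) : ℝ) := by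
    push_cast; positivity
  -- first term
  have e1 : η / (2 * (8 * C ^ 2) ^ N) * Δ ≤ η / 2 * ((L * s : ℕ) : ℝ) ^ N := by
    have h1 : Δ ≤ (8 * C ^ 2) ^ N * ((L * s : ℕ) : ℝ) ^ N := by
      refine hdet.trans ?_
      rw [← mul_pow]
      apply pow_le_pow_left₀ (by positivity)
      push_cast
      rw [div_le_iff₀ (by positivity)] at hLs_ge
      nlinarith
    calc η / (2 * (8 * C ^ 2) ^ N) * Δ ≤
          η / (2 * (8 * C ^ 2) ^ N) * ((8 * C ^ 2) ^ N * ((L * s : ℕ) : ℝ) ^ N) :=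
          mul_le_mul_of_nonneg_left h1 (by positivity)
      _ = _ := by field_simp
  -- second term
  have hbs3 : 2 * (b : ℝ) / s ≤ η' / (4 * (N + 1)) := by
    rw [div_le_iff₀ hsr]
    have : η' / (4 * (N + 1)) * s = 2 * (η' / (8 * (N + 1)) * s) := by
      field_simp; norm_num
    rw [this]
    linarith
  have hNr : (0 : ℝ) ≤ N := Nat.cast_nonneg N
  have hNb : (N : ℝ) * (2 * b / s) ≤ η' / 4 := by
    calc (N : ℝ) * (2 * b / s) ≤ N * (η' / (4 * (N + 1))) :=
          mul_le_mul_of_nonneg_left hbs3 hNr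
      _ ≤ η' / 4 := by
          rw [← mul_div_assoc, div_le_div_iff₀ (by positivity) (by norm_num)]
          nlinarith
  have e2 : (N : ℝ) * (2 * b / s) * ((L * s : ℕ) : ℝ) ^ N ≤
      η / 4 * ((L * s : ℕ) : ℝ) ^ N := by
    apply mul_le_mul_of_nonneg_right _ (by positivity)
    linarith
  -- third term
  have e3 : (L : ℝ) ^ N * ((s : ℝ) ^ N - ((s : ℝ) - 2 * b) ^ N) ≤
      η / 4 * ((L * s : ℕ) : ℝ) ^ N := by
    have h1 : ((s : ℝ) - 2 * b) ^ N = (s : ℝ) ^ N * (1 + -(2 * b / s)) ^ N := by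
      rw [← mul_pow]
      congr 1
      field_simp
      ring
    have h2 : 1 + (N : ℝ) * -(2 * b / s) ≤ (1 + -(2 * b / s)) ^ N := by
      apply one_add_mul_le_pow
      have h3 : 2 * (b : ℝ) / s < 1 := by
        rw [div_lt_one hsr]
        exact_mod_cast hbs2
      linarith
    have h3 : (s : ℝ) ^ N - ((s : ℝ) - 2 * b) ^ N ≤ (s : ℝ) ^ N * (N * (2 * b / s)) := by
      rw [h1]
      have h4 : (s : ℝ) ^ N * (1 + (N : ℝ) * -(2 * b / s)) ≤
          (s : ℝ) ^ N * (1 + -(2 * b / s)) ^ N := mul_le_mul_of_nonneg_left h2 (by positivity)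
      linarith
    calc (L : ℝ) ^ N * ((s : ℝ) ^ N - ((s : ℝ) - 2 * b) ^ N)
        ≤ (L : ℝ) ^ N * ((s : ℝ) ^ N * (N * (2 * b / s))) :=
          mul_le_mul_of_nonneg_left h3 (by positivity)
      _ = (N * (2 * b / s)) * ((L * s : ℕ) : ℝ) ^ N := by
          push_cast
          rw [mul_pow]
          ring
      _ ≤ (η / 4) * ((L * s : ℕ) : ℝ) ^ N :=
          mul_le_mul_of_nonneg_right (by linarith) (by positivity)
  linarith

/-- **From skew windows to standard cubes.** -/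
theorem cube_in_skew (N : ℕ) (C : ℝ) (hC : 1 ≤ C) (q L m : ℕ) (hq : 0 < q) (hL : 0 < L)
    (hm : 0 < m) (η : ℝ) (hη : 0 < η) : ∃ σ : ℝ, 0 < σ ∧ ∃ K : ℕ, 0 < K ∧ ∃ δ : ℝ, 0 < δ ∧
    ∃ X₀ : ℝ, 1 ≤ X₀ ∧ ∀ X : ℝ, X₀ ≤ X → ∀ (T : (Fin N → ℝ) ≃ₗ[ℝ] (Fin N → ℝ))
    (c : Fin N → ℝ), (∀ v, ‖T v‖ ≤ C * X * ‖v‖) → (∀ v, ‖T.symm v‖ ≤ C / X * ‖v‖) →
    ∀ W : Finset (Fin N → ℤ), (∀ x, x ∈ W ↔ ∀ i, 0 ≤ uu T c x i ∧ uu T c x i < 1) →
    ∃ (s : ℕ) (z : Fin N → ℤ), 0 < s ∧ m ∣ s ∧ q ∣ s ∧ σ * X ≤ L * s ∧ (L : ℝ) * s ≤ X ∧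
      (∀ i, (q : ℤ) ∣ z i) ∧ (∀ y ∈ cube N (L * s), z + y ∈ W) ∧
      ∀ (a : (Fin N → ℤ) → ℝ) (d : ℝ), (∀ x, 0 ≤ a x ∧ a x ≤ 1) → 0 ≤ d → d ≤ 1 →
        ∑ r ∈ cube N q, ∑ κ ∈ cube N K, |cw T c W q K a r κ -
          d * |LinearMap.det (T : (Fin N → ℝ) →ₗ[ℝ] (Fin N → ℝ))| / ((q : ℝ) * K) ^ N| ≤
          δ * |LinearMap.det (T : (Fin N → ℝ) →ₗ[ℝ] (Fin N → ℝ))| →
        ∑ r ∈ cube N q, ∑ k ∈ cube N L, |cs N q L s z a r k - d * ((s : ℝ) / q) ^ N| ≤
          η * ((L * s : ℕ) : ℝ) ^ N := by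
  have hqr : (0 : ℝ) < q := by exact_mod_cast hq
  have hLr : (0 : ℝ) < L := by exact_mod_cast hL
  have hmr : (0 : ℝ) < m := by exact_mod_cast hm
  have hCpos : (0 : ℝ) < C := by linarith
  set η' : ℝ := min η 1 with hη'
  have hη'0 : 0 < η' := lt_min hη one_pos
  have hη'1 : η' ≤ 1 := min_le_right _ _
  have hη'le : η' ≤ η := min_le_left _ _
  -- choice of K : b / s will be at most η' / (8 (N+1))
  obtain ⟨K, hK⟩ := exists_nat_ge (128 * (N + 1) * C ^ 2 * L / η' + 1)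
  have hKr : (0 : ℝ) < K := by
    have : 0 ≤ 128 * ((N : ℝ) + 1) * C ^ 2 * L / η' := by positivity
    linarith
  have hKn : 0 < K := by exact_mod_cast hKr
  refine ⟨1 / (8 * C), by positivity, K, hKn, η / (2 * (8 * C ^ 2) ^ N), by positivity,
    8 * C * q + 4 * C * L * (m * q) + 128 * (N + 1) * C * L / η' + 1, ?_, ?_⟩
  · have h1 : 0 ≤ 8 * C * q := by positivity
    have h2 : 0 ≤ 4 * C * L * (m * q) := by positivity
    have h3 : 0 ≤ 128 * ((N : ℝ) + 1) * C * L / η' := by positivity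
    linarith
  intro X hX T c hT hTs W hW
  have hp1 : 0 ≤ 8 * C * q := by positivity
  have hp2 : 0 ≤ 4 * C * L * (m * q) := by positivity
  have hp3 : 0 ≤ 128 * ((N : ℝ) + 1) * C * L / η' := by positivity
  have hXpos : 0 < X := by linarith
  -- the side
  set M : ℕ := m * q with hM
  have hMpos : 0 < M := Nat.mul_pos hm hq
  have hMr : (0 : ℝ) < M := by exact_mod_cast hMpos
  have hMcast : (M : ℝ) = m * q := by rw [hM]; push_cast; ring
  set t : ℕ := ⌊X / (4 * C * L * M)⌋₊ with ht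
  have ht1 : 1 ≤ X / (4 * C * L * M) := by
    rw [le_div_iff₀ (by positivity), hMcast]
    linarith
  have htle : (t : ℝ) ≤ X / (4 * C * L * M) := Nat.floor_le (by positivity)
  have htge : X / (4 * C * L * M) / 2 ≤ t := by
    have h1 := Nat.lt_floor_add_one (X / (4 * C * L * M))
    have h2 : (1 : ℝ) ≤ t := by
      exact_mod_cast Nat.le_floor (by exact_mod_cast ht1)
    linarith
  have htpos : 0 < t := by
    have h2 : (1 : ℝ) ≤ t := by
      exact_mod_cast Nat.le_floor (by exact_mod_cast ht1)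
    exact_mod_cast (by linarith : (0 : ℝ) < t)
  set s : ℕ := M * t with hs
  have hspos : 0 < s := Nat.mul_pos hMpos htpos
  have hsr : (0 : ℝ) < s := by exact_mod_cast hspos
  have hscast : (s : ℝ) = M * t := by rw [hs]; push_cast; ring
  have hLs_le : (L : ℝ) * s ≤ X / (4 * C) := by
    rw [hscast, le_div_iff₀ (by positivity)]
    rw [le_div_iff₀ (by positivity)] at htle
    linarith
  have hLs_ge : X / (8 * C) ≤ (L : ℝ) * s := by
    rw [hscast, div_le_iff₀ (by positivity)]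
    rw [div_div, div_le_iff₀ (by positivity)] at htge
    linarith
  -- the corner
  set p : Fin N → ℝ := T (fun _ => 1 / 2) + c with hp
  set z : Fin N → ℤ := fun i => q * ⌊p i / q⌋ with hz
  have hzp : ∀ i, (z i : ℝ) ≤ p i ∧ p i < z i + q := by
    intro i
    have h1 := Int.floor_le (p i / q)
    have h2 := Int.lt_floor_add_one (p i / q)
    rw [le_div_iff₀ hqr] at h1
    rw [div_lt_iff₀ hqr] at h2
    rw [hz]
    push_cast
    constructor <;> linarith
  have hin : ∀ v : Fin N → ℝ, (∀ i, (z i : ℝ) ≤ v i ∧ v i < z i + L * s) →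
      ∀ i, 0 ≤ T.symm (v - c) i ∧ T.symm (v - c) i < 1 := by
    intro v hv i
    have h1 : T.symm (v - c) = T.symm (v - p) + fun _ => 1 / 2 := by
      rw [hp]
      have h2 : v - c = (v - (T (fun _ => 1 / 2) + c)) + T (fun _ => 1 / 2) := by abel
      rw [h2, map_add, LinearEquiv.symm_apply_apply]
    have h2 : ‖v - p‖ ≤ q + L * s := by
      rw [pi_norm_le_iff_of_nonneg (by positivity)]
      intro j
      have e1 := hv j
      have e2 := hzp j
      have e3 : 0 ≤ (L : ℝ) * s := by positivity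
      rw [Pi.sub_apply, Real.norm_eq_abs, abs_le]
      constructor <;> linarith [e1.1, e1.2, e2.1, e2.2]
    have h3 : ‖T.symm (v - p)‖ ≤ 3 / 8 := by
      refine (hTs _).trans ?_
      have h4 : (q : ℝ) ≤ X / (8 * C) := by
        rw [le_div_iff₀ (by positivity)]
        linarith
      calc C / X * ‖v - p‖ ≤ C / X * (X / (8 * C) + X / (4 * C)) :=
            mul_le_mul_of_nonneg_left (by linarith) (by positivity)
        _ = 3 / 8 := by field_simp; norm_num
    have h5 := norm_le_pi_norm (T.symm (v - p)) i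
    rw [Real.norm_eq_abs] at h5
    have h6 := abs_le.mp (h5.trans h3)
    rw [h1, Pi.add_apply]
    constructor <;> linarith [h6.1, h6.2]
  -- the wall width
  set b : ℕ := ⌈C * X / K⌉₊ with hb
  have hb1 : C * X / K ≤ b := Nat.le_ceil _
  have hb2 : (b : ℝ) ≤ C * X / K + 1 := (Nat.ceil_lt_add_one (by positivity)).le
  have hbs : (b : ℝ) ≤ η' / (8 * (N + 1)) * s := by
    have h1 : X / (8 * C * L) ≤ s := by
      rw [div_le_iff₀ (by positivity)]
      rw [div_le_iff₀ (by positivity)] at hLs_ge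
      linarith
    have h2 : C * X / K ≤ η' / (8 * (N + 1)) * (X / (8 * C * L)) / 2 := by
      rw [div_le_iff₀ hKr]
      have h3 : 128 * (N + 1) * C ^ 2 * L / η' ≤ K := by linarith
      rw [div_le_iff₀ hη'0] at h3
      have h4 : η' / (8 * (N + 1)) * (X / (8 * C * L)) / 2 * K =
          (K * η') * X / (128 * (N + 1) * C * L) := by
        field_simp
        norm_num
      rw [h4, le_div_iff₀ (by positivity)]
      calc C * X * (128 * (N + 1) * C * L) = (128 * (N + 1) * C ^ 2 * L) * X := by ring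
        _ ≤ (K * η') * X := mul_le_mul_of_nonneg_right h3 hXpos.le
    have h5 : 1 ≤ η' / (8 * (N + 1)) * (X / (8 * C * L)) / 2 := by
      have h6 : 128 * (N + 1) * C * L / η' ≤ X := by linarith
      rw [div_le_iff₀ hη'0] at h6
      have h7 : η' / (8 * (N + 1)) * (X / (8 * C * L)) / 2 =
          (X * η') / (128 * (N + 1) * C * L) := by
        field_simp
        norm_num
      rw [h7, le_div_iff₀ (by positivity)]
      linarith
    calc (b : ℝ) ≤ C * X / K + 1 := hb2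
      _ ≤ η' / (8 * (N + 1)) * (X / (8 * C * L)) := by linarith
      _ ≤ _ := mul_le_mul_of_nonneg_left h1 (by positivity)
  have hbs2 : 2 * b < s := by
    have h1 : η' / (8 * (N + 1)) ≤ 1 / 8 := by
      rw [div_le_div_iff₀ (by positivity) (by norm_num)]
      have : (0 : ℝ) ≤ N := Nat.cast_nonneg N
      nlinarith
    have h2 : (b : ℝ) ≤ 1 / 8 * s := hbs.trans (mul_le_mul_of_nonneg_right h1 hsr.le)
    have h3 : 2 * (b : ℝ) < s := by linarith
    exact_mod_cast h3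
  refine ⟨s, z, hspos, ⟨q * t, by rw [hs, hM]; ring⟩, ⟨m * t, by rw [hs, hM]; ring⟩, ?_, ?_,
    fun i => ⟨_, rfl⟩, ?_, ?_⟩
  · calc 1 / (8 * C) * X = X / (8 * C) := by ring
      _ ≤ _ := hLs_ge
  · refine hLs_le.trans ?_
    rw [div_le_iff₀ (by positivity)]
    nlinarith
  · intro y hy
    rw [hW]
    apply hin (fun i => (((z + y) i : ℤ) : ℝ))
    intro j
    have h1 := mem_cube.mp hy j
    have h2 : (0 : ℝ) ≤ y j := by exact_mod_cast h1.1
    have h3 : (y j : ℝ) < ((L * s : ℕ) : ℤ) := by exact_mod_cast h1.2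
    push_cast at h3
    simp only [Pi.add_apply, Int.cast_add]
    constructor <;> linarith
  · intro a d ha hd0 hd1 hsum
    have hcore := skew_core T c q L K s b W z a hq hL hKn hspos (C * X) (by positivity) hT hb1
      hbs2 hW (fun i => ⟨_, rfl⟩) hin ha d hd0 hd1
    have hdet := det_le T (C * X) (by positivity) hT
    have hest := final_est N L s b η η' C X _ hη hη'0 hη'le hC hL hspos hXpos hdet hLs_ge hbs hbs2
    linarith

end Vale.Agent.P011.H436
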