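import Mathlib
import Vale.Agent.P011.H436.Skew

/-!
Counting the points of a residue class in a skew box.
-/

namespace Vale.Agent.P011.H436

open Finset MeasureTheory

variable {N : ℕ}

theorem region_congr_vol_le {T : (Fin N → ℝ) ≃ₗ[ℝ] (Fin N → ℝ)} {c : Fin N → ℝ} {L : ℝ}
    (hTs : ∀ v, ‖T.symm v‖ ≤ L * ‖v‖) (hL : 0 ≤ L) (q : ℕ) (x v : Fin N → ℝ)
    (hv : ∀ i, x i ≤ v i ∧ v i < x i + q) (i : Fin N) :
    |T.symm (v - c) i - T.symm (x - c) i| ≤ L * q := by
  have h1 : T.symm (v - c) - T.symm (x - c) = T.symm (v - x) := by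
    rw [← map_sub]
    congr 1
    abel
  have h2 : ‖v - x‖ ≤ q := by
    rw [pi_norm_le_iff_of_nonneg (Nat.cast_nonneg q)]
    intro j
    have := hv j
    rw [Pi.sub_apply, Real.norm_eq_abs, abs_le]
    constructor <;> linarith [this.1, this.2, (Nat.cast_nonneg q : (0 : ℝ) ≤ q)]
  have h3 := norm_le_pi_norm (T.symm (v - c) - T.symm (x - c)) i
  rw [Pi.sub_apply, Real.norm_eq_abs] at h3
  rw [h1] at h3
  exact h3.trans ((hTs _).trans (mul_le_mul_of_nonneg_left h2 hL))

/-- Upper count. -/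
theorem count_upper (T : (Fin N → ℝ) ≃ₗ[ℝ] (Fin N → ℝ)) (c : Fin N → ℝ) (q : ℕ) (hq : 0 < q)
    (L : ℝ) (hL : 0 ≤ L) (hTs : ∀ v, ‖T.symm v‖ ≤ L * ‖v‖) (r : Fin N → ℤ) (a b : Fin N → ℝ)
    (hab : ∀ i, a i ≤ b i) (S : Finset (Fin N → ℤ))
    (hS : ∀ x ∈ S, (∀ i, x i % (q : ℤ) = r i) ∧ ∀ i, a i ≤ uu T c x i ∧ uu T c x i < b i) :
    (S.card : ℝ) * (q : ℝ) ^ N ≤
      |LinearMap.det (T : (Fin N → ℝ) →ₗ[ℝ] (Fin N → ℝ))| *
        ∏ i, (b i - a i + 2 * (L * q)) := by
  have hqr : (0 : ℝ) < q := by exact_mod_cast hq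
  have hqz : (0 : ℤ) < q := by exact_mod_cast hq
  set Q : (Fin N → ℤ) → Set (Fin N → ℝ) := fun x =>
    Set.pi Set.univ fun i => Set.Ico (x i : ℝ) (x i + q) with hQ
  have hdisj : (S : Set (Fin N → ℤ)).PairwiseDisjoint Q := by
    intro x hx y hy hne
    rw [Function.onFun, Set.disjoint_left]
    intro v hv hv'
    apply hne
    funext i
    have h1 := hv i (Set.mem_univ i)
    have h2 := hv' i (Set.mem_univ i)
    have h3 : (x i : ℝ) < y i + q := lt_of_le_of_lt h1.1 h2.2
    have h4 : (y i : ℝ) < x i + q := lt_of_le_of_lt h2.1 h1.2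
    have h5 : x i < y i + q := by exact_mod_cast h3
    have h6 : y i < x i + q := by exact_mod_cast h4
    have h7 : (x i - y i) % (q : ℤ) = 0 := by
      rw [Int.sub_emod, ((hS x hx).1 i), ((hS y hy).1 i), sub_self, Int.zero_emod]
    have h8 := Int.dvd_of_emod_eq_zero h7
    have h9 : x i - y i = 0 := by
      apply Int.eq_zero_of_abs_lt_dvd h8
      rw [abs_lt]
      constructor <;> linarith
    linarith
  have h1 : volume (⋃ x ∈ S, Q x) = ∑ x ∈ S, volume (Q x) :=
    measure_biUnion_finset hdisj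
      (fun x _ => MeasurableSet.univ_pi fun i => measurableSet_Ico)
  have h2 : (⋃ x ∈ S, Q x) ⊆ region T c (fun i => a i - L * q) (fun i => b i + L * q) := by
    apply Set.iUnion₂_subset
    intro x hx v hv i
    have e1 := region_congr_vol_le (c := c) hTs hL q (fun i => (x i : ℝ)) v
      (fun j => by
        have := hv j (Set.mem_univ j)
        exact ⟨this.1, this.2⟩) i
    have e2 := (hS x hx).2 i
    have e3 := abs_le.mp e1
    have e4 : T.symm ((fun i => (x i : ℝ)) - c) i = uu T c x i := rfl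
    rw [e4] at e3
    constructor
    · simp only
      linarith [e3.1, e2.1]
    · simp only
      have h5 : T.symm (v - c) i ≤ uu T c x i + L * q := by linarith [e3.2]
      linarith [e2.2]
  have h3 := measure_mono (μ := volume) h2
  have h4 : ∀ x, volume (Q x) = ENNReal.ofReal ((q : ℝ) ^ N) := by
    intro x
    rw [hQ]
    simp only
    rw [Real.volume_pi_Ico, ENNReal.ofReal_pow hqr.le]
    simp
  have h6 : ∀ i, (b i + L * q) - (a i - L * q) = b i - a i + 2 * (L * q) := by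
    intro i; ring
  rw [h1, Finset.sum_congr rfl (fun x _ => h4 x), Finset.sum_const, nsmul_eq_mul, vol_region,
    ← ENNReal.ofReal_natCast, ← ENNReal.ofReal_mul (by positivity),
    ← ENNReal.ofReal_prod_of_nonneg (fun i _ => by
      simp only [h6]
      have := hab i
      have : 0 ≤ L * q := by positivity
      linarith), ← ENNReal.ofReal_mul (abs_nonneg _)] at h3
  simp only [h6] at h3
  rw [ENNReal.ofReal_le_ofReal_iff] at h3
  · exact h3
  · apply mul_nonneg (abs_nonneg _)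
    apply Finset.prod_nonneg
    intro i _
    have := hab i
    have : 0 ≤ L * q := by positivity
    linarith

/-- Lower count. -/
theorem count_lower (T : (Fin N → ℝ) ≃ₗ[ℝ] (Fin N → ℝ)) (c : Fin N → ℝ) (q : ℕ) (hq : 0 < q)
    (L : ℝ) (hL : 0 ≤ L) (hTs : ∀ v, ‖T.symm v‖ ≤ L * ‖v‖) (r : Fin N → ℤ)
    (hr : ∀ i, 0 ≤ r i ∧ r i < q) (a b : Fin N → ℝ)
    (hab : ∀ i, 0 ≤ b i - a i - 2 * (L * q)) (S : Finset (Fin N → ℤ))
    (hS : ∀ x : Fin N → ℤ, (∀ i, x i % (q : ℤ) = r i) →
      (∀ i, a i ≤ uu T c x i ∧ uu T c x i < b i) → x ∈ S) :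
    |LinearMap.det (T : (Fin N → ℝ) →ₗ[ℝ] (Fin N → ℝ))| *
        ∏ i, (b i - a i - 2 * (L * q)) ≤ (S.card : ℝ) * (q : ℝ) ^ N := by
  have hqr : (0 : ℝ) < q := by exact_mod_cast hq
  have hqz : (0 : ℤ) < q := by exact_mod_cast hq
  have hLq : 0 ≤ L * q := by positivity
  set Q : (Fin N → ℤ) → Set (Fin N → ℝ) := fun x =>
    Set.pi Set.univ fun i => Set.Ico (x i : ℝ) (x i + q) with hQ
  have h2 : region T c (fun i => a i + L * q) (fun i => b i - L * q) ⊆ (⋃ x ∈ S, Q x) := by
    intro v hv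
    set x : Fin N → ℤ := fun i => r i + q * ⌊(v i - r i) / q⌋ with hx
    have hxv : ∀ i, (x i : ℝ) ≤ v i ∧ v i < x i + q := by
      intro i
      have h1 := Int.floor_le ((v i - r i) / q)
      have h2 := Int.lt_floor_add_one ((v i - r i) / q)
      rw [le_div_iff₀ hqr] at h1
      rw [div_lt_iff₀ hqr] at h2
      rw [hx]
      push_cast
      constructor <;> linarith
    have hxr : ∀ i, x i % (q : ℤ) = r i := by
      intro i
      rw [hx]
      simp only
      rw [Int.add_mul_emod_self_left, Int.emod_eq_of_lt (hr i).1 (hr i).2]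
    have hxu : ∀ i, a i ≤ uu T c x i ∧ uu T c x i < b i := by
      intro i
      have e1 := abs_le.mp (region_congr_vol_le (c := c) hTs hL q (fun i => (x i : ℝ)) v hxv i)
      have e2 := hv i
      have e4 : T.symm ((fun i => (x i : ℝ)) - c) i = uu T c x i := rfl
      rw [e4] at e1
      simp only at e2
      constructor <;> linarith [e1.1, e1.2, e2.1, e2.2]
    exact Set.mem_iUnion₂.mpr ⟨x, hS x hxr hxu, fun i _ => ⟨(hxv i).1, (hxv i).2⟩⟩
  have h3 := (measure_mono (μ := volume) h2).trans (measure_biUnion_finset_le S Q)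
  have h4 : ∀ x, volume (Q x) = ENNReal.ofReal ((q : ℝ) ^ N) := by
    intro x
    rw [hQ]
    simp only
    rw [Real.volume_pi_Ico, ENNReal.ofReal_pow hqr.le]
    simp
  have h6 : ∀ i, (b i - L * q) - (a i + L * q) = b i - a i - 2 * (L * q) := by
    intro i; ring
  rw [Finset.sum_congr rfl (fun x _ => h4 x), Finset.sum_const, nsmul_eq_mul, vol_region,
    ← ENNReal.ofReal_natCast, ← ENNReal.ofReal_mul (by positivity : (0 : ℝ) ≤ (S.card : ℝ)),
    ← ENNReal.ofReal_prod_of_nonneg (fun i _ => by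
      simp only [h6]
      exact hab i), ← ENNReal.ofReal_mul (abs_nonneg _)] at h3
  simp only [h6] at h3
  rw [ENNReal.ofReal_le_ofReal_iff (by positivity)] at h3
  exact h3

/-- The integer points of a skew box form a finite set. -/
theorem finite_box (T : (Fin N → ℝ) ≃ₗ[ℝ] (Fin N → ℝ)) (c : Fin N → ℝ) (a b : Fin N → ℝ) :
    {x : Fin N → ℤ | ∀ i, a i ≤ uu T c x i ∧ uu T c x i < b i}.Finite := by
  -- the box is bounded, and `T` is continuous
  have hcont : Continuous (T : (Fin N → ℝ) →ₗ[ℝ] (Fin N → ℝ)) :=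
    LinearMap.continuous_of_finiteDimensional _
  have hcomp : IsCompact ((fun v => T v + c) '' (Set.Icc a b)) :=
    isCompact_Icc.image (hcont.add continuous_const)
  obtain ⟨R, hR⟩ := hcomp.isBounded.exists_norm_le
  obtain ⟨M, hM⟩ := exists_nat_ge R
  apply Set.Finite.subset (Fintype.piFinset (fun _ : Fin N => Finset.Icc (-(M : ℤ)) M)).finite_toSet
  intro x hx
  rw [Finset.mem_coe, Fintype.mem_piFinset]
  intro i
  have h1 : (fun i => (x i : ℝ)) ∈ (fun v => T v + c) '' (Set.Icc a b) := by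
    refine ⟨uu T c x, ⟨fun i => (hx i).1, fun i => (hx i).2.le⟩, ?_⟩
    rw [uu_eq]
    simp
  have h2 := hR _ h1
  have h3 := (norm_le_pi_norm (fun i => (x i : ℝ)) i).trans h2
  rw [Real.norm_eq_abs] at h3
  have h4 := abs_le.mp (h3.trans hM)
  rw [Finset.mem_Icc]
  constructor
  · have : ((-(M : ℤ) : ℤ) : ℝ) ≤ x i := by push_cast; exact h4.1
    exact_mod_cast this
  · have : (x i : ℝ) ≤ ((M : ℤ) : ℝ) := by push_cast; exact h4.2
    exact_mod_cast this

end Vale.Agent.P011.H436
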