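import Mathlib

/-!
The quadratic Weyl inverse theorem in one integer variable, in the weak quantitative form
needed for the linking step.
-/

namespace Vale.Agent.P011.H436

open Finset

/-- `e(x) = exp(2 pi i x)`. -/
noncomputable def ee (x : ℝ) : ℂ := Complex.exp ((2 * Real.pi * x : ℝ) * Complex.I)

theorem ee_add (x y : ℝ) : ee (x + y) = ee x * ee y := by
  unfold ee
  rw [← Complex.exp_add]
  congr 1
  push_cast
  ring

theorem ee_zero : ee 0 = 1 := by
  simp [ee]

theorem ee_int (n : ℤ) : ee n = 1 := by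
  unfold ee
  rw [Complex.exp_eq_one_iff]
  exact ⟨n, by push_cast; ring⟩

theorem norm_ee (x : ℝ) : ‖ee x‖ = 1 := by
  unfold ee
  exact Complex.norm_exp_ofReal_mul_I _

theorem ee_neg (x : ℝ) : ee (-x) = (starRingEnd ℂ) (ee x) := by
  unfold ee
  rw [← Complex.exp_conj]
  congr 1
  rw [map_mul, Complex.conj_I, Complex.conj_ofReal]
  push_cast
  ring

theorem ee_add_int (x : ℝ) (n : ℤ) : ee (x + n) = ee x := by
  rw [ee_add, ee_int, mul_one]

theorem ee_nat_mul (x : ℝ) (n : ℕ) : ee (n * x) = ee x ^ n := by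
  unfold ee
  rw [← Complex.exp_nat_mul]
  congr 1
  push_cast
  ring

/-- `|e(x) - 1| = 2 |sin (pi x)|`. -/
theorem norm_ee_sub_one (x : ℝ) : ‖ee x - 1‖ = 2 * |Real.sin (Real.pi * x)| := by
  have h : ee x - 1 = ee (x / 2) * (2 * (Real.sin (Real.pi * x) : ℂ) * Complex.I) := by
    have h1 : ee x = ee (x / 2) * ee (x / 2) := by rw [← ee_add]; ring_nf
    have h2 : ee (x / 2) * ee (-(x / 2)) = 1 := by
      rw [← ee_add, add_neg_cancel, ee_zero]
    have h3 : ee (x / 2) - ee (-(x / 2)) = 2 * (Real.sin (Real.pi * x) : ℂ) * Complex.I := by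
      unfold ee
      have e1 : ((2 * Real.pi * (x / 2) : ℝ) : ℂ) * Complex.I =
          (Real.pi * x : ℝ) * Complex.I := by
        push_cast; ring
      have e2 : ((2 * Real.pi * (-(x / 2)) : ℝ) : ℂ) * Complex.I =
          -((Real.pi * x : ℝ) : ℂ) * Complex.I := by
        push_cast; ring
      rw [e1, e2, Complex.ofReal_sin, Complex.sin]
      have hI : Complex.I * Complex.I = -1 := Complex.I_mul_I
      linear_combination (Complex.exp (((Real.pi * x : ℝ) : ℂ) * Complex.I) -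
        Complex.exp (-((Real.pi * x : ℝ) : ℂ) * Complex.I)) * hI
    rw [← h3, h1, mul_sub, h2]
  rw [h, norm_mul, norm_ee, one_mul, norm_mul, norm_mul, Complex.norm_I, mul_one,
    Complex.norm_real, Real.norm_eq_abs]
  norm_num

/-- `|e(x) - 1| <= 2 pi |x|`. -/
theorem norm_ee_sub_one_le (x : ℝ) : ‖ee x - 1‖ ≤ 2 * Real.pi * |x| := by
  rw [norm_ee_sub_one]
  have h : |Real.sin (Real.pi * x)| ≤ |Real.pi * x| := Real.abs_sin_le_abs
  rw [abs_mul, abs_of_pos Real.pi_pos] at h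
  nlinarith

/-- If a geometric sum is at least `T`, the ratio is close to an integer. -/
theorem geom_close (θ : ℝ) (L : ℕ) (T : ℝ) (hT : 0 < T)
    (h : T ≤ ‖∑ b ∈ range L, ee (θ * b)‖) : ∃ a : ℤ, |θ - a| ≤ 1 / (2 * T) := by
  refine ⟨round θ, ?_⟩
  set y : ℝ := θ - round θ with hy
  have hy2 : |y| ≤ 1 / 2 := abs_sub_round θ
  have hee : ee θ = ee y := by
    have : θ = y + (round θ : ℤ) := by rw [hy]; ring
    rw [this, ee_add_int]
  have hsum : ∑ b ∈ range L, ee (θ * b) = ∑ b ∈ range L, (ee y) ^ b := by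
    apply Finset.sum_congr rfl
    intro b _
    rw [mul_comm, ee_nat_mul, hee]
  have hgeo : (∑ b ∈ range L, (ee y) ^ b) * (ee y - 1) = (ee y) ^ L - 1 := geom_sum_mul _ _
  have hsin : 2 * |y| ≤ |Real.sin (Real.pi * y)| := by
    have habs : |Real.sin (Real.pi * y)| = Real.sin (Real.pi * |y|) := by
      have hnn : 0 ≤ Real.sin (Real.pi * |y|) := by
        apply Real.sin_nonneg_of_nonneg_of_le_pi
        · positivity
        · nlinarith [Real.pi_pos, abs_nonneg y]
      rcases abs_cases y with ⟨h1, _⟩ | ⟨h1, _⟩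
      · rw [h1] at hnn ⊢
        exact abs_of_nonneg hnn
      · rw [h1] at hnn ⊢
        rw [mul_neg, Real.sin_neg] at hnn ⊢
        rw [abs_of_nonpos (by linarith)]
    rw [habs]
    have := Real.mul_le_sin (x := Real.pi * |y|) (by positivity) (by nlinarith [Real.pi_pos])
    have hpi := Real.pi_pos
    calc 2 * |y| = 2 / Real.pi * (Real.pi * |y|) := by field_simp
      _ ≤ _ := this
  have h1 : ‖∑ b ∈ range L, ee (θ * b)‖ * (4 * |y|) ≤ 2 := by
    have h2 : ‖∑ b ∈ range L, ee (θ * b)‖ * ‖ee y - 1‖ ≤ 2 := by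
      rw [hsum, ← norm_mul, hgeo]
      calc ‖(ee y) ^ L - 1‖ ≤ ‖(ee y) ^ L‖ + ‖(1 : ℂ)‖ := norm_sub_le _ _
        _ = 2 := by rw [norm_pow, norm_ee]; norm_num
    have h3 : 4 * |y| ≤ ‖ee y - 1‖ := by
      rw [norm_ee_sub_one]; linarith
    exact le_trans (mul_le_mul_of_nonneg_left h3 (norm_nonneg _)) h2
  have h4 : T * (4 * |y|) ≤ 2 := le_trans (mul_le_mul_of_nonneg_right h (by positivity)) h1
  rw [le_div_iff₀ (by positivity)]
  linarith

/-- The square of an exponential sum, expanded along the diagonals. -/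
theorem sq_diag (z : ℕ → ℂ) (hz : ∀ b, ‖z b‖ = 1) (H : ℕ) :
    ‖∑ b ∈ range H, z b‖ ^ 2 =
      H + 2 * (∑ h ∈ range H, ∑ b ∈ range (H - 1 - h),
        z (b + (h + 1)) * (starRingEnd ℂ) (z b)).re := by
  induction H with
  | zero => simp
  | succ H ih =>
    have hP : ∑ h ∈ range (H + 1), ∑ b ∈ range (H + 1 - 1 - h),
        z (b + (h + 1)) * (starRingEnd ℂ) (z b) =
        (∑ h ∈ range H, ∑ b ∈ range (H - 1 - h), z (b + (h + 1)) * (starRingEnd ℂ) (z b)) +
          z H * (starRingEnd ℂ) (∑ b ∈ range H, z b) := by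
      rw [Finset.sum_range_succ]
      have h0 : H + 1 - 1 - H = 0 := by omega
      rw [h0, Finset.range_zero, Finset.sum_empty, add_zero, map_sum, Finset.mul_sum,
        ← Finset.sum_range_reflect (fun b => z H * (starRingEnd ℂ) (z b)) H,
        ← Finset.sum_add_distrib]
      apply Finset.sum_congr rfl
      intro h hh
      rw [Finset.mem_range] at hh
      have h1 : H + 1 - 1 - h = (H - 1 - h) + 1 := by omega
      rw [h1, Finset.sum_range_succ]
      have h2 : H - 1 - h + (h + 1) = H := by omega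
      rw [h2]
    rw [hP, Finset.sum_range_succ, Complex.add_re, mul_add]
    have hexp : ‖(∑ b ∈ range H, z b) + z H‖ ^ 2 =
        ‖∑ b ∈ range H, z b‖ ^ 2 + 1 +
          2 * (z H * (starRingEnd ℂ) (∑ b ∈ range H, z b)).re := by
      have h3 : ((‖(∑ b ∈ range H, z b) + z H‖ ^ 2 : ℝ)) =
          Complex.normSq ((∑ b ∈ range H, z b) + z H) := by
        rw [Complex.normSq_eq_norm_sq]
      rw [h3, Complex.normSq_add, Complex.normSq_eq_norm_sq, Complex.normSq_eq_norm_sq, hz]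
      have h4 : ((∑ b ∈ range H, z b) * (starRingEnd ℂ) (z H)).re =
          (z H * (starRingEnd ℂ) (∑ b ∈ range H, z b)).re := by
        rw [← Complex.conj_re, map_mul, Complex.conj_conj, mul_comm]
      rw [h4]
      ring
    rw [hexp, ih]
    push_cast
    ring

/-- Weyl differencing. -/
theorem weyl_diff (α β : ℝ) (H : ℕ) :
    ‖∑ b ∈ range H, ee (α * (b : ℝ) ^ 2 + β * b)‖ ^ 2 ≤
      H + 2 * ∑ h ∈ range H, ‖∑ b ∈ range (H - 1 - h), ee (2 * α * (h + 1) * b)‖ := by
  rw [sq_diag _ (fun b => norm_ee _)]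
  have h1 : (∑ h ∈ range H, ∑ b ∈ range (H - 1 - h),
      ee (α * ((b + (h + 1) : ℕ) : ℝ) ^ 2 + β * ((b + (h + 1) : ℕ) : ℝ)) *
        (starRingEnd ℂ) (ee (α * (b : ℝ) ^ 2 + β * b))).re ≤
      ∑ h ∈ range H, ‖∑ b ∈ range (H - 1 - h), ee (2 * α * (h + 1) * b)‖ := by
    refine (Complex.re_le_norm _).trans ?_
    refine (norm_sum_le _ _).trans ?_
    apply Finset.sum_le_sum
    intro h _
    have h2 : ∑ b ∈ range (H - 1 - h),
      ee (α * ((b + (h + 1) : ℕ) : ℝ) ^ 2 + β * ((b + (h + 1) : ℕ) : ℝ)) *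
        (starRingEnd ℂ) (ee (α * (b : ℝ) ^ 2 + β * b)) =
        ee (α * (h + 1) ^ 2 + β * (h + 1)) *
          ∑ b ∈ range (H - 1 - h), ee (2 * α * (h + 1) * b) := by
      rw [Finset.mul_sum]
      apply Finset.sum_congr rfl
      intro b _
      rw [← ee_neg, ← ee_add, ← ee_add]
      congr 1
      push_cast
      ring
    rw [h2, norm_mul, norm_ee, one_mul]
  linarith

/-- Two close elements and two elements at controlled distance in a dense set. -/
theorem dense_pairs (c : ℝ) (hc : 0 < c) (L : ℕ) (hL : 1 ≤ L) : ∃ H₀ D : ℕ, 1 ≤ D ∧ 1 ≤ H₀ ∧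
    ∀ (H : ℕ) (G : Finset ℕ), H₀ ≤ H → (∀ h ∈ G, h < H) → c * H ≤ G.card →
      ∃ x ∈ G, ∃ y ∈ G, ∃ u ∈ G, ∃ v ∈ G, x < y ∧ y - x < D ∧ u < v ∧
        ((v : ℝ) - u ≤ H / L) ∧ c * H / (2 * L + 1) / 2 ≤ (v : ℝ) - u := by
  have hLpos : (0 : ℝ) < L := by exact_mod_cast hL
  obtain ⟨D, hD⟩ := exists_nat_ge (4 * (2 * (L : ℝ) + 1) / (c * L) + 1)
  have hD0 : 0 ≤ 4 * (2 * (L : ℝ) + 1) / (c * L) := by positivity
  have hDpos : (0 : ℝ) < D := by linarith
  have hDn : 1 ≤ D := by exact_mod_cast (by linarith : (1 : ℝ) ≤ D)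
  obtain ⟨H₀, hH₀⟩ := exists_nat_ge (L + 8 * (2 * L + 1) / c + 1)
  have hpos1 : (0 : ℝ) ≤ 8 * (2 * L + 1) / c := by positivity
  refine ⟨H₀, D, hDn, by exact_mod_cast (by linarith : (1 : ℝ) ≤ H₀), ?_⟩
  intro H G hH hG hcard
  have hHr : (H₀ : ℝ) ≤ H := by exact_mod_cast hH
  have hHL : (L : ℝ) ≤ H := by linarith
  have hHpos : (0 : ℝ) < H := by linarith
  have hHLn : L ≤ H := by exact_mod_cast hHL
  set w : ℕ := H / L with hw
  have hw1 : 1 ≤ w := by
    rw [hw]; exact Nat.div_pos hHLn (by omega)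
  have hwle : (w : ℝ) ≤ H / L := by
    rw [le_div_iff₀ hLpos]
    exact_mod_cast Nat.div_mul_le_self H L
  have hwge : (H : ℝ) / (2 * L) ≤ w := by
    have h1 : H < (w + 1) * L := by
      rw [hw]
      have h5 := Nat.div_add_mod H L
      have h6 := Nat.mod_lt H (by omega : L > 0)
      nlinarith
    have h2 : (H : ℝ) < (w + 1) * L := by exact_mod_cast h1
    have h3 : (1 : ℝ) ≤ w := by exact_mod_cast hw1
    rw [div_le_iff₀ (by positivity)]
    nlinarith
  -- number of blocks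
  have hblocks : ∀ h ∈ G, h / w ∈ range (2 * L + 1) := by
    intro h hh
    rw [Finset.mem_range, Nat.div_lt_iff_lt_mul (by omega)]
    have h1 := hG h hh
    have h2 : (H : ℝ) ≤ 2 * L * w := by
      rw [div_le_iff₀ (by positivity)] at hwge
      linarith
    have h3 : H ≤ 2 * L * w := by exact_mod_cast h2
    nlinarith
  -- a rich block
  obtain ⟨j, _, hj⟩ : ∃ j ∈ range (2 * L + 1),
      c * H / (2 * L + 1) ≤ ((G.filter (fun h => h / w = j)).card : ℝ) := by
    by_contra hcon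
    simp only [not_exists, not_and, not_le] at hcon
    have h1 : G.card = ∑ j ∈ range (2 * L + 1), (G.filter (fun h => h / w = j)).card :=
      Finset.card_eq_sum_card_fiberwise hblocks
    have h2 : (G.card : ℝ) < ∑ j ∈ range (2 * L + 1), c * H / (2 * L + 1) := by
      rw [h1]
      push_cast
      apply Finset.sum_lt_sum_of_nonempty
      · exact ⟨0, by simp⟩
      · exact hcon
    rw [Finset.sum_const, Finset.card_range, nsmul_eq_mul] at h2
    push_cast at h2
    have h3 : (2 * (L : ℝ) + 1) * (c * H / (2 * L + 1)) = c * H := by field_simp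
    rw [h3] at h2
    linarith
  set B : Finset ℕ := G.filter (fun h => h / w = j) with hB
  have hBG : ∀ h ∈ B, h ∈ G := fun h hh => (Finset.mem_filter.mp hh).1
  have hBj : ∀ h ∈ B, w * j ≤ h ∧ h < w * j + w := by
    intro h hh
    have h1 := (Finset.mem_filter.mp hh).2
    have h5 := Nat.div_add_mod h w
    have h6 := Nat.mod_lt h (by omega : w > 0)
    rw [h1] at h5
    constructor <;> omega
  clear_value B
  -- size of the block set
  have hm4 : (4 : ℝ) ≤ c * H / (2 * L + 1) := by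
    rw [le_div_iff₀ (by positivity)]
    have h1 : 8 * (2 * (L : ℝ) + 1) / c ≤ H := by linarith
    rw [div_le_iff₀ hc] at h1
    nlinarith
  have hBne : B.Nonempty := by
    rw [← Finset.card_pos]
    have : (0 : ℝ) < B.card := by linarith
    exact_mod_cast this
  -- a close pair
  obtain ⟨h1, hh1, h2, hh2, hne, heq⟩ : ∃ x ∈ B, ∃ y ∈ B, x ≠ y ∧
      (x - w * j) / D = (y - w * j) / D := by
    apply Finset.exists_ne_map_eq_of_card_lt_of_maps_to (t := range (w / D + 1))
    · rw [Finset.card_range]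
      have h1 : ((w / D : ℕ) : ℝ) ≤ w / D := Nat.cast_div_le
      have h2 : (w : ℝ) / D ≤ c * H / (2 * L + 1) / 4 := by
        rw [div_le_iff₀ hDpos]
        have h3 : 4 * (2 * (L : ℝ) + 1) / (c * L) ≤ D := by linarith
        rw [div_le_iff₀ (by positivity)] at h3
        have h4 : c * H / (2 * L + 1) / 4 * D = c * H * D / (4 * (2 * L + 1)) := by
          field_simp
        rw [h4, le_div_iff₀ (by positivity)]
        calc (w : ℝ) * (4 * (2 * L + 1)) ≤ (H / L) * (4 * (2 * L + 1)) :=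
              mul_le_mul_of_nonneg_right hwle (by positivity)
          _ ≤ (H / L) * (D * (c * L)) := mul_le_mul_of_nonneg_left h3 (by positivity)
          _ = c * H * D := by field_simp
      have h5 : ((w / D + 1 : ℕ) : ℝ) < B.card := by
        push_cast
        linarith
      exact_mod_cast h5
    · intro x hx
      have := hBj x hx
      rw [Finset.mem_coe, Finset.mem_range]
      have h3 : (x - w * j) / D ≤ w / D := Nat.div_le_div_right (by omega)
      show (x - w * j) / D < w / D + 1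
      omega
  -- order the pair
  obtain ⟨x, hx, y, hy, hxy, hd⟩ : ∃ x ∈ B, ∃ y ∈ B, x < y ∧ y - x < D := by
    have hd1 := Nat.div_add_mod (h1 - w * j) D
    have hd2 := Nat.div_add_mod (h2 - w * j) D
    have hm1 := Nat.mod_lt (h1 - w * j) (by omega : D > 0)
    have hm2 := Nat.mod_lt (h2 - w * j) (by omega : D > 0)
    have hb1 := (hBj h1 hh1).1
    have hb2 := (hBj h2 hh2).1
    rw [heq] at hd1
    rcases lt_or_gt_of_ne hne with hlt | hlt
    · exact ⟨h1, hh1, h2, hh2, hlt, by omega⟩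
    · exact ⟨h2, hh2, h1, hh1, hlt, by omega⟩
  have hmin := B.min'_mem hBne
  have hmax := B.max'_mem hBne
  have hminmax : B.min' hBne ≤ B.max' hBne := B.min'_le _ hmax
  have hminlt : B.min' hBne < B.max' hBne := by
    have e1 := B.min'_le x hx
    have e2 := B.le_max' y hy
    omega
  have hgw : B.max' hBne - B.min' hBne ≤ w := by
    have h3 := (hBj _ hmin).1
    have h4 := (hBj _ hmax).2
    omega
  have hgcard : B.card ≤ B.max' hBne - B.min' hBne + 1 := by
    have hsub : B ⊆ Finset.Icc (B.min' hBne) (B.max' hBne) := by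
      intro z hz
      rw [Finset.mem_Icc]
      exact ⟨B.min'_le z hz, B.le_max' z hz⟩
    have := Finset.card_le_card hsub
    rw [Nat.card_Icc] at this
    omega
  have hgr : ((B.max' hBne - B.min' hBne : ℕ) : ℝ) = (B.max' hBne : ℝ) - B.min' hBne :=
    Nat.cast_sub hminmax
  refine ⟨x, hBG x hx, y, hBG y hy, _, hBG _ hmin, _, hBG _ hmax, hxy, hd, hminlt, ?_, ?_⟩
  · rw [← hgr]
    have : ((B.max' hBne - B.min' hBne : ℕ) : ℝ) ≤ w := by exact_mod_cast hgw
    linarith
  · rw [← hgr]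
    have h3 : (B.card : ℝ) ≤ (B.max' hBne - B.min' hBne : ℕ) + 1 := by exact_mod_cast hgcard
    linarith

/-- The combinatorial heart: many multiples of `α` close to integers. -/
theorem many_close (c δ : ℝ) (hc : 0 < c) (hδ : 0 < δ) : ∃ H₀ D C : ℕ, 1 ≤ H₀ ∧
    ∀ (α : ℝ) (H : ℕ) (G : Finset ℕ), H₀ ≤ H → (∀ h ∈ G, h < H) → c * H ≤ G.card →
      (∀ h ∈ G, ∃ a : ℤ, |α * (h + 1) - a| ≤ δ / H) →
      ∃ d : ℕ, 1 ≤ d ∧ d ≤ D ∧ ∃ a : ℤ, |d * α - a| ≤ C / (H : ℝ) ^ 2 := by
  obtain ⟨L, hL⟩ := exists_nat_ge (8 * δ + 8)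
  have hL8 : (8 : ℝ) ≤ L := by linarith
  have hLpos : (0 : ℝ) < L := by linarith
  have hLn : 1 ≤ L := by exact_mod_cast (by linarith : (1 : ℝ) ≤ L)
  obtain ⟨H₁, D, hD1, hH₁1, hpairs⟩ := dense_pairs c hc L hLn
  have hDpos : (0 : ℝ) < D := by exact_mod_cast hD1
  obtain ⟨C, hC⟩ := exists_nat_ge (4 * δ * D * (2 * L + 1) / c)
  obtain ⟨H₀, hH₀⟩ := exists_nat_ge ((H₁ : ℝ) + 16 * δ * D)
  have hpos2 : (0 : ℝ) ≤ 16 * δ * D := by positivity
  have hH₀1 : H₁ ≤ H₀ := by exact_mod_cast (by linarith : (H₁ : ℝ) ≤ H₀)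
  refine ⟨H₀, D, C, by omega, ?_⟩
  intro α H G hH hG hcard hclose
  have hHr : (H₀ : ℝ) ≤ H := by exact_mod_cast hH
  have hH₁r : (1 : ℝ) ≤ H₁ := by exact_mod_cast hH₁1
  have hHpos : (0 : ℝ) < H := by linarith
  obtain ⟨x, hx, y, hy, u, hu, v, hv, hxy, hd, huv, hgH, hgge⟩ :=
    hpairs H G (by omega) hG hcard
  obtain ⟨ax, hax⟩ := hclose x hx
  obtain ⟨ay, hay⟩ := hclose y hy
  obtain ⟨an, han⟩ := hclose u hu
  obtain ⟨am, ham⟩ := hclose v hv
  set d : ℕ := y - x with hdd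
  set g : ℕ := v - u with hgg
  have hdr : (d : ℝ) = y - x := by
    rw [hdd, Nat.cast_sub hxy.le]
  have hgr : (g : ℝ) = (v : ℝ) - u := by
    rw [hgg, Nat.cast_sub huv.le]
  rw [← hgr] at hgH hgge
  have hgpos : (0 : ℝ) < g := by
    have : 0 < g := by omega
    exact_mod_cast this
  set e1 : ℝ := α * d - ((ay - ax : ℤ) : ℝ) with he1
  set e2 : ℝ := α * g - ((am - an : ℤ) : ℝ) with he2
  have he1b : |e1| ≤ 2 * δ / H := by
    have h3 : e1 = (α * (y + 1) - ay) - (α * (x + 1) - ax) := by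
      rw [he1, hdr]; push_cast; ring
    rw [h3]
    calc _ ≤ |α * (y + 1) - ay| + |α * (x + 1) - ax| := abs_sub _ _
      _ ≤ δ / H + δ / H := add_le_add hay hax
      _ = _ := by ring
  have he2b : |e2| ≤ 2 * δ / H := by
    have h3 : e2 = (α * (v + 1) - am) - (α * (u + 1) - an) := by
      rw [he2, hgr]; push_cast; ring
    rw [h3]
    calc _ ≤ |α * (v + 1) - am| + |α * (u + 1) - an| := abs_sub _ _
      _ ≤ δ / H + δ / H := add_le_add ham han
      _ = _ := by ring
  have hdD : (d : ℝ) ≤ D := by exact_mod_cast hd.le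
  have hd0 : (0 : ℝ) ≤ d := Nat.cast_nonneg d
  have hd1 : 1 ≤ d := by omega
  clear_value d g e1 e2
  -- integer identity
  have hsmall : |(d : ℝ) * e2 - g * e1| < 1 := by
    calc |(d : ℝ) * e2 - g * e1| ≤ |(d : ℝ) * e2| + |g * e1| := abs_sub _ _
      _ = d * |e2| + g * |e1| := by
        rw [abs_mul, abs_mul, abs_of_nonneg hd0, abs_of_nonneg hgpos.le]
      _ ≤ D * (2 * δ / H) + (H / L) * (2 * δ / H) := by
        apply add_le_add
        · exact mul_le_mul hdD he2b (abs_nonneg _) hDpos.le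
        · exact mul_le_mul hgH he1b (abs_nonneg _) (by positivity)
      _ < 1 := by
        have h6 : (H / L : ℝ) * (2 * δ / H) = 2 * δ / L := by field_simp
        have h7 : (D : ℝ) * (2 * δ / H) ≤ 1 / 8 := by
          rw [← mul_div_assoc, div_le_iff₀ hHpos]
          have : 16 * δ * D ≤ H := by linarith
          linarith
        have h8 : 2 * δ / L ≤ 1 / 4 := by
          rw [div_le_iff₀ hLpos]
          linarith
        rw [h6]
        linarith
  have hint : (g : ℤ) * (ay - ax) = d * (am - an) := by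
    have h4 : |(((g : ℤ) * (ay - ax) - d * (am - an) : ℤ) : ℝ)| < 1 := by
      have h5 : (((g : ℤ) * (ay - ax) - d * (am - an) : ℤ) : ℝ) = d * e2 - g * e1 := by
        rw [he1, he2]; push_cast; ring
      rw [h5]
      exact hsmall
    have h9 : |((g : ℤ) * (ay - ax) - d * (am - an) : ℤ)| < 1 := by exact_mod_cast h4
    have h10 := Int.abs_lt_one_iff.mp h9
    linarith
  have hge : (g : ℝ) * e1 = d * e2 := by
    have h3 : ((g : ℝ)) * ((ay - ax : ℤ) : ℝ) = d * ((am - an : ℤ) : ℝ) := by exact_mod_cast hint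
    rw [he1, he2]
    linear_combination -h3
  refine ⟨d, hd1, by omega, ay - ax, ?_⟩
  have h10 : (d : ℝ) * α - ((ay - ax : ℤ) : ℝ) = e1 := by rw [he1]; ring
  rw [h10]
  have h11 : |e1| = d * |e2| / g := by
    rw [eq_div_iff hgpos.ne']
    have : |(g : ℝ) * e1| = |(d : ℝ) * e2| := by rw [hge]
    rw [abs_mul, abs_mul, abs_of_nonneg hd0, abs_of_nonneg hgpos.le] at this
    linarith
  rw [h11]
  calc (d : ℝ) * |e2| / g ≤ D * (2 * δ / H) / (c * H / (2 * L + 1) / 2) := by
        apply div_le_div₀ (by positivity)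
        · exact mul_le_mul hdD he2b (abs_nonneg _) hDpos.le
        · positivity
        · exact hgge
    _ = (4 * δ * D * (2 * L + 1) / c) / (H : ℝ) ^ 2 := by
        field_simp
        ring
    _ ≤ C / (H : ℝ) ^ 2 := div_le_div_of_nonneg_right hC (by positivity)

/-- The quadratic Weyl inverse theorem. -/
theorem weyl_inverse2 (δ : ℝ) (hδ : 0 < δ) (hδ1 : δ ≤ 1) : ∃ Q : ℕ, 1 ≤ Q ∧
    ∀ (α β : ℝ) (H : ℕ), 1 ≤ H →
      δ * H ≤ ‖∑ b ∈ range H, ee (α * (b : ℝ) ^ 2 + β * b)‖ →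
      ∃ q : ℕ, 1 ≤ q ∧ q ≤ Q ∧ ∃ a : ℤ, |q * α - a| ≤ Q / (H : ℝ) ^ 2 := by
  obtain ⟨H₀, D, C, hH₀, hmain⟩ := many_close (δ ^ 2 / 8) (2 / δ ^ 2) (by positivity)
    (by positivity)
  obtain ⟨H₁, hH₁⟩ := exists_nat_ge (4 / δ ^ 2)
  refine ⟨2 * D + C + (H₀ + H₁) ^ 2, by
    have : 0 < (H₀ + H₁) ^ 2 := by positivity
    omega, ?_⟩
  intro α β H hH hS
  have hHpos : (0 : ℝ) < H := by exact_mod_cast hH
  by_cases hbig : H₀ + H₁ ≤ H
  · set f : ℕ → ℝ := fun h => ‖∑ b ∈ range (H - 1 - h), ee (2 * α * (h + 1) * b)‖ with hf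
    have hfle : ∀ h, f h ≤ H := by
      intro h
      rw [hf]
      refine (norm_sum_le _ _).trans ?_
      simp only [norm_ee, Finset.sum_const, Finset.card_range, nsmul_eq_mul, mul_one]
      exact_mod_cast (by omega : H - 1 - h ≤ H)
    set G : Finset ℕ := (range H).filter (fun h => δ ^ 2 * H / 4 ≤ f h) with hG
    have hdiff := weyl_diff α β H
    have hsum : ∑ h ∈ range H, f h ≤ G.card * H + H * (δ ^ 2 * H / 4) := by
      calc ∑ h ∈ range H, f h
          ≤ ∑ h ∈ range H, ((if δ ^ 2 * H / 4 ≤ f h then (H : ℝ) else 0) + δ ^ 2 * H / 4) := by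
            apply Finset.sum_le_sum
            intro h _
            by_cases h1 : δ ^ 2 * H / 4 ≤ f h
            · rw [if_pos h1]
              have := hfle h
              have : 0 ≤ δ ^ 2 * H / 4 := by positivity
              linarith
            · rw [if_neg h1]
              linarith
        _ = _ := by
            rw [Finset.sum_add_distrib, Finset.sum_const, Finset.card_range,
              ← Finset.sum_filter, Finset.sum_const, nsmul_eq_mul, nsmul_eq_mul]
    have hsq : δ ^ 2 * (H : ℝ) ^ 2 ≤ H + 2 * (G.card * H + H * (δ ^ 2 * H / 4)) := by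
      have h1 : (δ * H) ^ 2 ≤ ‖∑ b ∈ range H, ee (α * (b : ℝ) ^ 2 + β * b)‖ ^ 2 :=
        pow_le_pow_left₀ (by positivity) hS 2
      calc δ ^ 2 * (H : ℝ) ^ 2 = (δ * H) ^ 2 := by ring
        _ ≤ _ := h1
        _ ≤ _ := hdiff
        _ ≤ _ := by linarith
    have hH1 : 4 / δ ^ 2 ≤ H := by
      have : (H₁ : ℝ) ≤ H := by exact_mod_cast (by omega : H₁ ≤ H)
      linarith
    have hcard : δ ^ 2 / 8 * H ≤ G.card := by
      rw [div_le_iff₀ (by positivity)] at hH1
      have h2 : δ ^ 2 * H ≤ 1 + 2 * (G.card + (δ ^ 2 * H / 4)) := by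
        have h3 : (δ ^ 2 * H) * H ≤ (1 + 2 * (G.card + (δ ^ 2 * H / 4))) * H := by
          nlinarith
        exact le_of_mul_le_mul_right h3 hHpos
      nlinarith
    obtain ⟨d, hd1, hdD, a, ha⟩ := hmain (2 * α) H G (by omega)
      (fun h hh => Finset.mem_range.mp (Finset.mem_filter.mp hh).1) hcard (by
        intro h hh
        have h1 := (Finset.mem_filter.mp hh).2
        obtain ⟨a, ha⟩ := geom_close (2 * α * (h + 1)) (H - 1 - h) (δ ^ 2 * H / 4)
          (by positivity) h1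
        refine ⟨a, ha.trans (le_of_eq ?_)⟩
        field_simp
        ring)
    refine ⟨2 * d, by omega, by nlinarith, a, ?_⟩
    push_cast
    have h1 : 2 * (d : ℝ) * α - a = d * (2 * α) - a := by ring
    rw [h1]
    refine ha.trans (div_le_div_of_nonneg_right ?_ (by positivity))
    have h3 : (0 : ℝ) ≤ D := Nat.cast_nonneg D
    nlinarith [sq_nonneg ((H₀ : ℝ) + H₁)]
  · refine ⟨1, le_refl _, by nlinarith, round α, ?_⟩
    push_cast
    rw [one_mul, le_div_iff₀ (by positivity)]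
    have h1 : |α - round α| ≤ 1 / 2 := abs_sub_round α
    have h2 : (H : ℝ) ≤ H₀ + H₁ := by exact_mod_cast (by omega : H ≤ H₀ + H₁)
    have h3 : (H : ℝ) ^ 2 ≤ (H₀ + H₁) ^ 2 := pow_le_pow_left₀ hHpos.le h2 2
    have h4 : (0 : ℝ) ≤ D := Nat.cast_nonneg D
    have h5 : (0 : ℝ) ≤ C := Nat.cast_nonneg C
    nlinarith [abs_nonneg (α - round α), sq_nonneg (H : ℝ)]

end Vale.Agent.P011.H436
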