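import Mathlib
import Vale.Agent.P011.H436.Weyl2

/-!
Parseval on `Z^D` for finitely supported functions by sums over `[0,M)^D`, and the resulting
multiplier theorem for finite combinations of translations.
-/

namespace Vale.Agent.P011.H436

open Finset

variable {D : ℕ}

/-- The pairing `<θ, x>`. -/
def dt (θ : Fin D → ℝ) (x : Fin D → ℤ) : ℝ := ∑ j, θ j * x j

theorem dt_add (θ : Fin D → ℝ) (x y : Fin D → ℤ) : dt θ (x + y) = dt θ x + dt θ y := by
  unfold dt
  rw [← Finset.sum_add_distrib]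
  apply Finset.sum_congr rfl
  intro j _
  rw [Pi.add_apply]; push_cast; ring

theorem dt_neg (θ : Fin D → ℝ) (x : Fin D → ℤ) : dt θ (-x) = -dt θ x := by
  unfold dt
  rw [← Finset.sum_neg_distrib]
  apply Finset.sum_congr rfl
  intro j _
  rw [Pi.neg_apply]; push_cast; ring

theorem dt_sub (θ : Fin D → ℝ) (x y : Fin D → ℤ) : dt θ (x - y) = dt θ x - dt θ y := by
  rw [sub_eq_add_neg, dt_add, dt_neg]; ring

theorem dt_smul (θ : Fin D → ℝ) (n : ℤ) (x : Fin D → ℤ) : dt θ (n • x) = n * dt θ x := by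
  unfold dt
  rw [Finset.mul_sum]
  apply Finset.sum_congr rfl
  intro j _
  rw [Pi.smul_apply, smul_eq_mul]; push_cast; ring

/-- Finite geometric sum over a full period. -/
theorem sum_ee_period (M : ℕ) (hM : 1 ≤ M) (z : ℤ) :
    ∑ k ∈ range M, ee ((k : ℝ) / M * z) = if (M : ℤ) ∣ z then (M : ℂ) else 0 := by
  have hM0 : (M : ℝ) ≠ 0 := by
    have : (0 : ℝ) < M := by exact_mod_cast hM
    exact this.ne'
  have h1 : ∀ k ∈ range M, ee ((k : ℝ) / M * z) = (ee ((z : ℝ) / M)) ^ k := by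
    intro k _
    rw [← ee_nat_mul]
    congr 1
    field_simp
  rw [Finset.sum_congr rfl h1]
  split_ifs with hz
  · obtain ⟨t, rfl⟩ := hz
    have h2 : (((M : ℤ) * t : ℤ) : ℝ) / M = t := by
      push_cast; field_simp
    rw [h2, ee_int]
    simp
  · have hne : ee ((z : ℝ) / M) ≠ 1 := by
      intro h
      unfold ee at h
      rw [Complex.exp_eq_one_iff] at h
      obtain ⟨n, hn⟩ := h
      apply hz
      refine ⟨n, ?_⟩
      have h3 : ((2 * Real.pi * ((z : ℝ) / M) : ℝ) : ℂ) * Complex.I =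
          ((2 * Real.pi * (n : ℝ) : ℝ) : ℂ) * Complex.I := by
        rw [hn]; push_cast; ring
      have h4 := mul_right_cancel₀ Complex.I_ne_zero h3
      have h5 : 2 * Real.pi * ((z : ℝ) / M) = 2 * Real.pi * (n : ℝ) := by exact_mod_cast h4
      have h6 : (z : ℝ) / M = n := mul_left_cancel₀ (by positivity) h5
      rw [div_eq_iff hM0] at h6
      have h7 : (z : ℝ) = ((n * M : ℤ) : ℝ) := by rw [h6]; push_cast; ring
      have h8 : z = n * M := by exact_mod_cast h7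
      rw [h8]; ring
    have hpow : (ee ((z : ℝ) / M)) ^ M = 1 := by
      rw [← ee_nat_mul]
      have : (M : ℝ) * ((z : ℝ) / M) = z := by field_simp
      rw [this, ee_int]
    have h2 := geom_sum_mul (ee ((z : ℝ) / M)) M
    rw [hpow, sub_self] at h2
    rcases mul_eq_zero.mp h2 with h3 | h3
    · exact h3
    · exact absurd (sub_eq_zero.mp h3) hne

/-- Dual grid point. -/
noncomputable def gp (M : ℕ) (ξ : Fin D → ℕ) : Fin D → ℝ := fun j => (ξ j : ℝ) / M

/-- Orthogonality. -/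
theorem orth (M : ℕ) (hM : 1 ≤ M) (z : Fin D → ℤ) :
    ∑ ξ ∈ Fintype.piFinset (fun _ : Fin D => range M), ee (dt (gp M ξ) z) =
      if (∀ j, (M : ℤ) ∣ z j) then (M : ℂ) ^ D else 0 := by
  have h1 : ∀ ξ : Fin D → ℕ, ee (dt (gp M ξ) z) = ∏ j, ee ((ξ j : ℝ) / M * z j) := by
    intro ξ
    unfold dt gp ee
    rw [← Complex.exp_sum]
    congr 1
    rw [← Finset.sum_mul]
    congr 1
    rw [Finset.mul_sum]
    push_cast
    rfl
  rw [Finset.sum_congr rfl (fun ξ _ => h1 ξ),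
    ← Finset.prod_univ_sum (fun _ : Fin D => range M) (fun j k => ee ((k : ℝ) / M * z j))]
  rw [Finset.prod_congr rfl (fun j _ => sum_ee_period M hM (z j))]
  split_ifs with h
  · rw [Finset.prod_congr rfl (fun j _ => if_pos (h j))]
    simp
  · obtain ⟨j, hj⟩ := not_forall.mp h
    exact Finset.prod_eq_zero (Finset.mem_univ j) (if_neg hj)

/-- Fourier transform of a function restricted to a finite set. -/
noncomputable def ft (X : Finset (Fin D → ℤ)) (F : (Fin D → ℤ) → ℂ) (θ : Fin D → ℝ) : ℂ :=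
  ∑ x ∈ X, F x * ee (dt θ x)

/-- Parseval. -/
theorem parseval (M : ℕ) (hM : 1 ≤ M) (X : Finset (Fin D → ℤ))
    (hX : ∀ x ∈ X, ∀ y ∈ X, (∀ j, (M : ℤ) ∣ x j - y j) → x = y) (F : (Fin D → ℤ) → ℂ) :
    ∑ ξ ∈ Fintype.piFinset (fun _ : Fin D => range M), ‖ft X F (gp M ξ)‖ ^ 2 =
      (M : ℝ) ^ D * ∑ x ∈ X, ‖F x‖ ^ 2 := by
  have hC : ((∑ ξ ∈ Fintype.piFinset (fun _ : Fin D => range M),
      ‖ft X F (gp M ξ)‖ ^ 2 : ℝ) : ℂ) = (((M : ℝ) ^ D * ∑ x ∈ X, ‖F x‖ ^ 2 : ℝ) : ℂ) := by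
    push_cast
    have h1 : ∀ ξ : Fin D → ℕ, ((‖ft X F (gp M ξ)‖ : ℂ)) ^ 2 =
        ∑ x ∈ X, ∑ y ∈ X, F x * (starRingEnd ℂ) (F y) * ee (dt (gp M ξ) (x - y)) := by
      intro ξ
      rw [← Complex.mul_conj' ]
      unfold ft
      rw [map_sum, Finset.sum_mul_sum]
      apply Finset.sum_congr rfl
      intro x _
      apply Finset.sum_congr rfl
      intro y _
      rw [map_mul, ← ee_neg, dt_sub, sub_eq_add_neg, ee_add]
      ring
    rw [Finset.sum_congr rfl (fun ξ _ => h1 ξ), Finset.sum_comm, Finset.mul_sum]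
    apply Finset.sum_congr rfl
    intro x hx
    rw [Finset.sum_comm, Finset.sum_eq_single x]
    · rw [← Finset.mul_sum, orth M hM, if_pos (by intro j; simp), Complex.mul_conj' ]
      ring
    · intro y hy hxy
      rw [← Finset.mul_sum, orth M hM, if_neg, mul_zero]
      intro h
      exact hxy (hX x hx y hy h).symm
    · intro h
      exact absurd hx h
  exact_mod_cast hC

/-- **Multiplier theorem** on `Z^D`. -/
theorem multiplier_bound {ι : Type*} (S : Finset ι) (c : ι → ℂ) (w : ι → Fin D → ℤ)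
    (B : ℝ) (hm : ∀ θ : Fin D → ℝ, ‖∑ s ∈ S, c s * ee (-dt θ (w s))‖ ≤ B)
    (F : (Fin D → ℤ) → ℂ) (X₀ : Finset (Fin D → ℤ)) (hF : ∀ x, x ∉ X₀ → F x = 0)
    (X : Finset (Fin D → ℤ)) :
    ∑ x ∈ X, ‖∑ s ∈ S, c s * F (x + w s)‖ ^ 2 ≤ B ^ 2 * ∑ x ∈ X₀, ‖F x‖ ^ 2 := by
  classical
  set X₁ : Finset (Fin D → ℤ) := X₀ ∪ X ∪ S.biUnion (fun s => X₀.image (fun x => x - w s))
    with hX₁
  -- a modulus separating the points of `X₁`
  obtain ⟨M, hM, hsep⟩ : ∃ M : ℕ, 1 ≤ M ∧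
      ∀ x ∈ X₁, ∀ y ∈ X₁, (∀ j, (M : ℤ) ∣ x j - y j) → x = y := by
    refine ⟨∑ x ∈ X₁, ∑ y ∈ X₁, ∑ j, (x j - y j).natAbs + 1, by omega, ?_⟩
    intro x hx y hy h
    funext j
    by_contra hne
    have h1 := Int.le_of_dvd (a := ((∑ x ∈ X₁, ∑ y ∈ X₁, ∑ j, (x j - y j).natAbs + 1 : ℕ) : ℤ))
      (b := |x j - y j|) (abs_pos.mpr (sub_ne_zero.mpr hne)) ((dvd_abs _ _).mpr (h j))
    have h2 : (x j - y j).natAbs ≤ ∑ x ∈ X₁, ∑ y ∈ X₁, ∑ j, (x j - y j).natAbs := by
      calc (x j - y j).natAbs ≤ ∑ j, (x j - y j).natAbs :=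
            Finset.single_le_sum (f := fun j => (x j - y j).natAbs)
              (fun _ _ => Nat.zero_le _) (Finset.mem_univ j)
        _ ≤ ∑ y ∈ X₁, ∑ j, (x j - y j).natAbs :=
            Finset.single_le_sum (f := fun y => ∑ j, (x j - y j).natAbs)
              (fun _ _ => Nat.zero_le _) hy
        _ ≤ _ := Finset.single_le_sum (f := fun x => ∑ y ∈ X₁, ∑ j, (x j - y j).natAbs)
              (fun _ _ => Nat.zero_le _) hx
    rw [Int.abs_eq_natAbs] at h1
    have h3 : ∑ x ∈ X₁, ∑ y ∈ X₁, ∑ j, (x j - y j).natAbs + 1 ≤ (x j - y j).natAbs := by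
      exact_mod_cast h1
    omega
  set G : (Fin D → ℤ) → ℂ := fun x => ∑ s ∈ S, c s * F (x + w s) with hG
  have hftF : ∀ θ : Fin D → ℝ, ft X₁ F θ = ft X₀ F θ := by
    intro θ
    unfold ft
    symm
    apply Finset.sum_subset
    · intro x hx
      rw [hX₁, Finset.mem_union, Finset.mem_union]
      exact Or.inl (Or.inl hx)
    · intro x _ hx
      rw [hF x hx, zero_mul]
  have hftG : ∀ θ : Fin D → ℝ, ft X₁ G θ = (∑ s ∈ S, c s * ee (-dt θ (w s))) * ft X₀ F θ := by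
    intro θ
    unfold ft
    rw [hG]
    simp only [Finset.sum_mul]
    rw [Finset.sum_comm]
    apply Finset.sum_congr rfl
    intro s hs
    have h1 : ∑ x ∈ X₁, c s * F (x + w s) * ee (dt θ x) =
        ∑ x ∈ X₀.image (fun x => x - w s), c s * F (x + w s) * ee (dt θ x) := by
      symm
      apply Finset.sum_subset
      · intro x hx
        rw [hX₁, Finset.mem_union]
        right
        rw [Finset.mem_biUnion]
        exact ⟨s, hs, hx⟩
      · intro x _ hx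
        have : F (x + w s) = 0 := by
          apply hF
          intro h
          apply hx
          rw [Finset.mem_image]
          exact ⟨x + w s, h, by simp⟩
        rw [this, mul_zero, zero_mul]
    rw [h1, Finset.sum_image (by intro a _ b _ h; simpa using h), Finset.mul_sum]
    apply Finset.sum_congr rfl
    intro x _
    rw [sub_add_cancel, dt_sub, sub_eq_add_neg, ee_add]
    ring
  have hP1 := parseval M hM X₁ hsep G
  have hP2 := parseval M hM X₁ hsep F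
  have hMpos : (0 : ℝ) < (M : ℝ) ^ D := by
    have : (0 : ℝ) < M := by exact_mod_cast hM
    positivity
  have hle : ∑ ξ ∈ Fintype.piFinset (fun _ : Fin D => range M), ‖ft X₁ G (gp M ξ)‖ ^ 2 ≤
      B ^ 2 * ∑ ξ ∈ Fintype.piFinset (fun _ : Fin D => range M), ‖ft X₁ F (gp M ξ)‖ ^ 2 := by
    rw [Finset.mul_sum]
    apply Finset.sum_le_sum
    intro ξ _
    rw [hftG, hftF, norm_mul, mul_pow]
    exact mul_le_mul_of_nonneg_right (pow_le_pow_left₀ (norm_nonneg _) (hm _) 2) (by positivity)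
  rw [hP1, hP2] at hle
  have h2 : ∑ x ∈ X₁, ‖G x‖ ^ 2 ≤ B ^ 2 * ∑ x ∈ X₁, ‖F x‖ ^ 2 := by
    have h3 : (M : ℝ) ^ D * ∑ x ∈ X₁, ‖G x‖ ^ 2 ≤
        (M : ℝ) ^ D * (B ^ 2 * ∑ x ∈ X₁, ‖F x‖ ^ 2) := by
      calc _ ≤ _ := hle
        _ = _ := by ring
    exact le_of_mul_le_mul_left h3 hMpos
  have h4 : ∑ x ∈ X₁, ‖F x‖ ^ 2 = ∑ x ∈ X₀, ‖F x‖ ^ 2 := by
    symm
    apply Finset.sum_subset
    · intro x hx
      rw [hX₁, Finset.mem_union, Finset.mem_union]
      exact Or.inl (Or.inl hx)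
    · intro x _ hx
      rw [hF x hx]; simp
  have h5 : ∑ x ∈ X, ‖G x‖ ^ 2 ≤ ∑ x ∈ X₁, ‖G x‖ ^ 2 := by
    apply Finset.sum_le_sum_of_subset_of_nonneg
    · intro x hx
      rw [hX₁, Finset.mem_union, Finset.mem_union]
      exact Or.inl (Or.inr hx)
    · intro _ _ _; positivity
  rw [← h4]
  exact h5.trans h2

end Vale.Agent.P011.H436
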