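import Mathlib
import Vale.Agent.P011.H436.Pars

/-!
General position: if the quadratic exponential sums attached to `D` independent vectors are all
large at the frequency `θ`, then `θ` is close to a rational point with bounded denominator.
-/

namespace Vale.Agent.P011.H436

open Finset

variable {D : ℕ}

/-- One fixed system of `D` independent vectors. -/
theorem major_one (Bm : Matrix (Fin D) (Fin D) ℤ) (hdet : Bm.det ≠ 0) (δ : ℝ) (hδ : 0 < δ)
    (hδ1 : δ ≤ 1) : ∃ (Q : ℕ) (C : ℝ), 1 ≤ Q ∧ 0 ≤ C ∧ ∀ (I : ℕ), 1 ≤ I →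
      ∀ (β : Fin D → ℝ) (θ : Fin D → ℝ),
      (∀ i, δ * I ≤ ‖∑ b ∈ range I, ee (dt θ (Bm i) * (b : ℝ) ^ 2 + β i * b)‖) →
      ∀ l, ∃ a : ℤ, |(Q : ℝ) * θ l - a| ≤ C / (I : ℝ) ^ 2 := by
  obtain ⟨Q, hQ1, hQ⟩ := weyl_inverse2 δ hδ hδ1
  set R : ℝ := (Q.factorial : ℝ) * Q with hR
  have hR0 : 0 ≤ R := by positivity
  refine ⟨Bm.det.natAbs * Q.factorial, ∑ l, ∑ i, |(Bm.adjugate l i : ℝ)| * R, ?_, by positivity,
    ?_⟩
  · have h1 : 0 < Bm.det.natAbs := Int.natAbs_pos.mpr hdet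
    have h2 := Nat.factorial_pos Q
    exact Nat.mul_pos h1 h2
  intro I hI β θ hbig l
  have hIpos : (0 : ℝ) < (I : ℝ) ^ 2 := by
    have : (0 : ℝ) < I := by exact_mod_cast hI
    positivity
  -- common denominator
  have hint : ∀ i, ∃ a : ℤ, |(Q.factorial : ℝ) * dt θ (Bm i) - a| ≤ R / (I : ℝ) ^ 2 := by
    intro i
    obtain ⟨q, hq1, hqQ, a, ha⟩ := hQ (dt θ (Bm i)) (β i) I hI (hbig i)
    obtain ⟨t, ht⟩ := Nat.dvd_factorial (by omega : 0 < q) hqQ
    refine ⟨t * a, ?_⟩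
    have ht' : (Q.factorial : ℝ) = q * t := by rw [ht]; push_cast; ring
    have h1 : (Q.factorial : ℝ) * dt θ (Bm i) - ((t * a : ℤ) : ℝ) =
        t * (q * dt θ (Bm i) - a) := by
      rw [ht']; push_cast; ring
    rw [h1, abs_mul, abs_of_nonneg (Nat.cast_nonneg t), hR, mul_div_assoc]
    apply mul_le_mul _ ha (abs_nonneg _) (by positivity)
    rw [ht']
    have hq : (1 : ℝ) ≤ q := by exact_mod_cast hq1
    nlinarith [Nat.cast_nonneg (α := ℝ) t]
  choose a ha using hint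
  -- Cramer
  have hcr : (Bm.det : ℝ) * θ l = ∑ i, (Bm.adjugate l i : ℝ) * dt θ (Bm i) := by
    have h1 : ∀ l', (∑ i, Bm.adjugate l i * Bm i l') = if l = l' then Bm.det else 0 := by
      intro l'
      have h2 := congrFun (congrFun (Matrix.adjugate_mul Bm) l) l'
      rw [Matrix.mul_apply, Matrix.smul_apply, Matrix.one_apply] at h2
      rw [h2]
      split_ifs <;> simp
    have h3 : ∑ i, (Bm.adjugate l i : ℝ) * dt θ (Bm i) =
        ∑ l', θ l' * ((∑ i, Bm.adjugate l i * Bm i l' : ℤ) : ℝ) := by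
      unfold dt
      simp only [Finset.mul_sum]
      rw [Finset.sum_comm]
      apply Finset.sum_congr rfl
      intro l' _
      push_cast
      rw [Finset.mul_sum]
      apply Finset.sum_congr rfl
      intro i _
      ring
    rw [h3]
    simp only [h1]
    rw [Finset.sum_eq_single l]
    · simp; ring
    · intro b _ hb
      rw [if_neg (Ne.symm hb)]; simp
    · intro h; exact absurd (Finset.mem_univ l) h
  -- conclusion up to sign
  have hmain : |(Bm.det : ℝ) * Q.factorial * θ l - ((∑ i, Bm.adjugate l i * a i : ℤ) : ℝ)| ≤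
      (∑ l, ∑ i, |(Bm.adjugate l i : ℝ)| * R) / (I : ℝ) ^ 2 := by
    have h1 : (Bm.det : ℝ) * Q.factorial * θ l - ((∑ i, Bm.adjugate l i * a i : ℤ) : ℝ) =
        ∑ i, (Bm.adjugate l i : ℝ) * ((Q.factorial : ℝ) * dt θ (Bm i) - a i) := by
      have h2 : (Bm.det : ℝ) * Q.factorial * θ l = Q.factorial * ((Bm.det : ℝ) * θ l) := by ring
      rw [h2, hcr, Finset.mul_sum]
      push_cast
      rw [← Finset.sum_sub_distrib]
      apply Finset.sum_congr rfl
      intro i _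
      ring
    rw [h1]
    calc _ ≤ ∑ i, |(Bm.adjugate l i : ℝ) * ((Q.factorial : ℝ) * dt θ (Bm i) - a i)| :=
          Finset.abs_sum_le_sum_abs _ _
      _ ≤ ∑ i, |(Bm.adjugate l i : ℝ)| * (R / (I : ℝ) ^ 2) := by
          apply Finset.sum_le_sum
          intro i _
          rw [abs_mul]
          exact mul_le_mul_of_nonneg_left (ha i) (abs_nonneg _)
      _ = (∑ i, |(Bm.adjugate l i : ℝ)| * R) / (I : ℝ) ^ 2 := by
          rw [Finset.sum_div]
          apply Finset.sum_congr rfl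
          intro i _
          ring
      _ ≤ _ := by
          apply div_le_div_of_nonneg_right _ hIpos.le
          exact Finset.single_le_sum (f := fun l => ∑ i, |(Bm.adjugate l i : ℝ)| * R)
            (fun _ _ => by positivity) (Finset.mem_univ l)
  rcases Int.natAbs_eq Bm.det with h | h
  · refine ⟨∑ i, Bm.adjugate l i * a i, ?_⟩
    have h2 : (((Bm.det.natAbs * Q.factorial : ℕ)) : ℝ) = (Bm.det : ℝ) * Q.factorial := by
      rw [Nat.cast_mul]
      congr 1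
      have h5 : ((Bm.det.natAbs : ℤ) : ℝ) = (Bm.det : ℝ) := congrArg (Int.cast) h.symm
      rw [Int.cast_natCast] at h5
      exact h5
    rw [h2]
    exact hmain
  · refine ⟨-∑ i, Bm.adjugate l i * a i, ?_⟩
    have h2 : (((Bm.det.natAbs * Q.factorial : ℕ)) : ℝ) = -(Bm.det : ℝ) * Q.factorial := by
      rw [Nat.cast_mul]
      congr 1
      have h5 : ((Bm.det.natAbs : ℤ) : ℝ) = ((-Bm.det : ℤ) : ℝ) :=
        congrArg (Int.cast) (by omega)
      rw [Int.cast_natCast, Int.cast_neg] at h5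
      exact h5
    rw [h2]
    have h3 : -(Bm.det : ℝ) * Q.factorial * θ l - ((-∑ i, Bm.adjugate l i * a i : ℤ) : ℝ) =
        -((Bm.det : ℝ) * Q.factorial * θ l - ((∑ i, Bm.adjugate l i * a i : ℤ) : ℝ)) := by
      push_cast; ring
    rw [h3, abs_neg]
    exact hmain

/-- All systems of `D` vectors among the `B j` at once. -/
theorem major_all {J : ℕ} (B : Fin J → Fin D → ℤ)
    (hgen : ∀ s : Fin D ↪ Fin J, (Matrix.of (fun i l => B (s i) l)).det ≠ 0) (δ : ℝ)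
    (hδ : 0 < δ) (hδ1 : δ ≤ 1) : ∃ (Q : ℕ) (C : ℝ), 1 ≤ Q ∧ 0 ≤ C ∧ ∀ (I : ℕ), 1 ≤ I →
      ∀ (β : Fin J → ℝ) (θ : Fin D → ℝ),
      (∃ s : Fin D ↪ Fin J, ∀ i,
        δ * I ≤ ‖∑ b ∈ range I, ee (dt θ (B (s i)) * (b : ℝ) ^ 2 + β (s i) * b)‖) →
      ∀ l, ∃ a : ℤ, |(Q : ℝ) * θ l - a| ≤ C / (I : ℝ) ^ 2 := by
  classical
  choose Q C hQ1 hC0 h using fun s : Fin D ↪ Fin J =>
    major_one (Matrix.of (fun i l => B (s i) l)) (hgen s) δ hδ hδ1
  refine ⟨∏ s, Q s, (∏ s, (Q s : ℝ)) * ∑ s, C s, Nat.succ_le_of_lt (Finset.prod_pos (fun s _ => hQ1 s)),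
    mul_nonneg (Finset.prod_nonneg (fun s _ => Nat.cast_nonneg _))
      (Finset.sum_nonneg (fun s _ => hC0 s)), ?_⟩
  intro I hI β θ hs l
  obtain ⟨s, hs⟩ := hs
  obtain ⟨a, ha⟩ := h s I hI (fun i => β (s i)) θ hs l
  have hIpos : (0 : ℝ) < (I : ℝ) ^ 2 := by
    have : (0 : ℝ) < I := by exact_mod_cast hI
    positivity
  have hprod : ∏ s, Q s = (∏ t ∈ univ.erase s, Q t) * Q s :=
    (Finset.prod_erase_mul _ _ (Finset.mem_univ s)).symm
  set P : ℕ := ∏ t ∈ univ.erase s, Q t with hP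
  refine ⟨P * a, ?_⟩
  have h1 : ((∏ s, Q s : ℕ) : ℝ) * θ l - ((P * a : ℤ) : ℝ) = P * (Q s * θ l - a) := by
    rw [hprod]; push_cast; ring
  rw [h1, abs_mul, abs_of_nonneg (Nat.cast_nonneg P)]
  have h2 : (P : ℝ) ≤ ∏ s, (Q s : ℝ) := by
    have h3 : P ≤ ∏ s, Q s := by
      rw [hprod]
      exact Nat.le_mul_of_pos_right _ (hQ1 s)
    exact_mod_cast h3
  have h4 : C s ≤ ∑ s, C s := Finset.single_le_sum (fun s _ => hC0 s) (Finset.mem_univ s)
  calc (P : ℝ) * |Q s * θ l - a| ≤ (∏ s, (Q s : ℝ)) * (C s / (I : ℝ) ^ 2) :=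
        mul_le_mul h2 ha (abs_nonneg _)
          (Finset.prod_nonneg (fun s _ => Nat.cast_nonneg _))
    _ ≤ (∏ s, (Q s : ℝ)) * ((∑ s, C s) / (I : ℝ) ^ 2) := by
        apply mul_le_mul_of_nonneg_left _ (Finset.prod_nonneg (fun s _ => Nat.cast_nonneg _))
        exact div_le_div_of_nonneg_right h4 hIpos.le
    _ = _ := by ring

end Vale.Agent.P011.H436
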