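import Mathlib
import Vale.Agent.P011.H436.Gen

/-!
The linking lemma on `Z^D`, L2 form: averages of `b - K b` along the quadratic progressions
`i ^ 2 • B j + i • A j` are small in L2 for most `j`, for arbitrary linear parts `A j`.
-/

namespace Vale.Agent.P011.H436

open Finset

variable {D : ℕ}

/-- Multiplier theorem for a finite family of convolution operators. -/
theorem multiplier_family {ι κ : Type*} (T : Finset κ) (S : Finset ι) (c : κ → ι → ℂ)
    (w : κ → ι → Fin D → ℤ) (B : ℝ)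
    (hm : ∀ θ : Fin D → ℝ, ∑ t ∈ T, ‖∑ s ∈ S, c t s * ee (-dt θ (w t s))‖ ^ 2 ≤ B)
    (F : (Fin D → ℤ) → ℂ) (X₀ : Finset (Fin D → ℤ)) (hF : ∀ x, x ∉ X₀ → F x = 0)
    (X : Finset (Fin D → ℤ)) :
    ∑ t ∈ T, ∑ x ∈ X, ‖∑ s ∈ S, c t s * F (x + w t s)‖ ^ 2 ≤ B * ∑ x ∈ X₀, ‖F x‖ ^ 2 := by
  classical
  set X₁ : Finset (Fin D → ℤ) := X₀ ∪ X ∪
    T.biUnion (fun t => S.biUnion (fun s => X₀.image (fun x => x - w t s))) with hX₁
  -- a modulus separating the points of `X₁`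
  obtain ⟨M, hM, hsep⟩ : ∃ M : ℕ, 1 ≤ M ∧
      ∀ x ∈ X₁, ∀ y ∈ X₁, (∀ j, (M : ℤ) ∣ x j - y j) → x = y := by
    refine ⟨∑ x ∈ X₁, ∑ y ∈ X₁, ∑ j, (x j - y j).natAbs + 1, by omega, ?_⟩
    intro x hx y hy h
    funext j
    by_contra hne
    have h1 := Int.le_of_dvd (a := ((∑ x ∈ X₁, ∑ y ∈ X₁, ∑ j, (x j - y j).natAbs + 1 : ℕ) : ℤ))
      (b := |x j - y j|) (abs_pos.mpr (sub_ne_zero.mpr hne)) ((dvd_abs _ _).mpr (h j))
    have h2 : (x j - y j).natAbs ≤ ∑ x ∈ X₁, ∑ y ∈ X₁, ∑ j, (x j - y j).natAbs := by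
      calc (x j - y j).natAbs ≤ ∑ j, (x j - y j).natAbs :=
            Finset.single_le_sum (f := fun j => (x j - y j).natAbs)
              (fun _ _ => Nat.zero_le _) (Finset.mem_univ j)
        _ ≤ ∑ y ∈ X₁, ∑ j, (x j - y j).natAbs :=
            Finset.single_le_sum (f := fun y => ∑ j, (x j - y j).natAbs)
              (fun _ _ => Nat.zero_le _) hy
        _ ≤ _ := Finset.single_le_sum (f := fun x => ∑ y ∈ X₁, ∑ j, (x j - y j).natAbs)
              (fun _ _ => Nat.zero_le _) hx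
    rw [Int.abs_eq_natAbs] at h1
    have h3 : ∑ x ∈ X₁, ∑ y ∈ X₁, ∑ j, (x j - y j).natAbs + 1 ≤ (x j - y j).natAbs := by
      exact_mod_cast h1
    omega
  set G : κ → (Fin D → ℤ) → ℂ := fun t x => ∑ s ∈ S, c t s * F (x + w t s) with hG
  have hftF : ∀ θ : Fin D → ℝ, ft X₁ F θ = ft X₀ F θ := by
    intro θ
    unfold ft
    symm
    apply Finset.sum_subset
    · intro x hx
      rw [hX₁, Finset.mem_union, Finset.mem_union]
      exact Or.inl (Or.inl hx)
    · intro x _ hx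
      rw [hF x hx, zero_mul]
  have hftG : ∀ t ∈ T, ∀ θ : Fin D → ℝ,
      ft X₁ (G t) θ = (∑ s ∈ S, c t s * ee (-dt θ (w t s))) * ft X₀ F θ := by
    intro t ht θ
    unfold ft
    rw [hG]
    simp only [Finset.sum_mul]
    rw [Finset.sum_comm]
    apply Finset.sum_congr rfl
    intro s hs
    have h1 : ∑ x ∈ X₁, c t s * F (x + w t s) * ee (dt θ x) =
        ∑ x ∈ X₀.image (fun x => x - w t s), c t s * F (x + w t s) * ee (dt θ x) := by
      symm
      apply Finset.sum_subset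
      · intro x hx
        rw [hX₁, Finset.mem_union]
        right
        rw [Finset.mem_biUnion]
        exact ⟨t, ht, Finset.mem_biUnion.mpr ⟨s, hs, hx⟩⟩
      · intro x _ hx
        have : F (x + w t s) = 0 := by
          apply hF
          intro h
          apply hx
          rw [Finset.mem_image]
          exact ⟨x + w t s, h, by simp⟩
        rw [this, mul_zero, zero_mul]
    rw [h1, Finset.sum_image (by intro a _ b _ h; simpa using h), Finset.mul_sum]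
    apply Finset.sum_congr rfl
    intro x _
    rw [sub_add_cancel, dt_sub, sub_eq_add_neg, ee_add]
    ring
  have hP1 : ∀ t, _ := fun t => parseval M hM X₁ hsep (G t)
  have hP2 := parseval M hM X₁ hsep F
  have hMpos : (0 : ℝ) < (M : ℝ) ^ D := by
    have : (0 : ℝ) < M := by exact_mod_cast hM
    positivity
  have hle : ∑ t ∈ T, ∑ ξ ∈ Fintype.piFinset (fun _ : Fin D => range M),
      ‖ft X₁ (G t) (gp M ξ)‖ ^ 2 ≤
      B * ∑ ξ ∈ Fintype.piFinset (fun _ : Fin D => range M), ‖ft X₁ F (gp M ξ)‖ ^ 2 := by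
    rw [Finset.sum_comm, Finset.mul_sum]
    apply Finset.sum_le_sum
    intro ξ _
    have h1 : ∑ t ∈ T, ‖ft X₁ (G t) (gp M ξ)‖ ^ 2 =
        (∑ t ∈ T, ‖∑ s ∈ S, c t s * ee (-dt (gp M ξ) (w t s))‖ ^ 2) *
          ‖ft X₁ F (gp M ξ)‖ ^ 2 := by
      rw [Finset.sum_mul]
      apply Finset.sum_congr rfl
      intro t ht
      rw [hftG t ht, hftF, norm_mul, mul_pow]
    rw [h1]
    exact mul_le_mul_of_nonneg_right (hm _) (by positivity)
  simp only [hP1, hP2] at hle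
  rw [← Finset.mul_sum] at hle
  have h2 : ∑ t ∈ T, ∑ x ∈ X₁, ‖G t x‖ ^ 2 ≤ B * ∑ x ∈ X₁, ‖F x‖ ^ 2 := by
    have h3 : (M : ℝ) ^ D * ∑ t ∈ T, ∑ x ∈ X₁, ‖G t x‖ ^ 2 ≤
        (M : ℝ) ^ D * (B * ∑ x ∈ X₁, ‖F x‖ ^ 2) := by
      calc _ ≤ _ := hle
        _ = _ := by ring
    exact le_of_mul_le_mul_left h3 hMpos
  have h4 : ∑ x ∈ X₁, ‖F x‖ ^ 2 = ∑ x ∈ X₀, ‖F x‖ ^ 2 := by
    symm
    apply Finset.sum_subset
    · intro x hx
      rw [hX₁, Finset.mem_union, Finset.mem_union]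
      exact Or.inl (Or.inl hx)
    · intro x _ hx
      rw [hF x hx]; simp
  have h5 : ∑ t ∈ T, ∑ x ∈ X, ‖G t x‖ ^ 2 ≤ ∑ t ∈ T, ∑ x ∈ X₁, ‖G t x‖ ^ 2 := by
    apply Finset.sum_le_sum
    intro t _
    apply Finset.sum_le_sum_of_subset_of_nonneg
    · intro x hx
      rw [hX₁, Finset.mem_union, Finset.mem_union]
      exact Or.inl (Or.inr hx)
    · intro _ _ _; positivity
  rw [← h4]
  exact h5.trans h2

/-- The standard cube `[0,Y)^D`. -/
noncomputable def cube (D Y : ℕ) : Finset (Fin D → ℤ) := Fintype.piFinset (fun _ => Finset.Ico 0 (Y : ℤ))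

theorem card_cube (D Y : ℕ) : (cube D Y).card = Y ^ D := by
  unfold cube
  rw [Fintype.card_piFinset]
  simp

/-- Local average along `Q * [0,Y)^D`. -/
noncomputable def KK (D Q Y : ℕ) (b : (Fin D → ℤ) → ℝ) (x : Fin D → ℤ) : ℝ :=
  (1 / (Y : ℝ) ^ D) * ∑ y ∈ cube D Y, b (x + (Q : ℤ) • y)

theorem sum_ee_conj {ι : Type*} (S : Finset ι) (f : ι → ℝ) :
    ‖∑ s ∈ S, ee (-f s)‖ = ‖∑ s ∈ S, ee (f s)‖ := by
  have h : ∑ s ∈ S, ee (-f s) = (starRingEnd ℂ) (∑ s ∈ S, ee (f s)) := by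
    rw [map_sum]
    exact Finset.sum_congr rfl (fun s _ => ee_neg _)
  rw [h, Complex.norm_conj]

/-- The kernel `K` is close to the identity at major frequencies. -/
theorem one_sub_K (Q Y : ℕ) (hY : 1 ≤ Y) (θ : Fin D → ℝ) (r : ℝ) (hr : 0 ≤ r)
    (h : ∀ l, ∃ a : ℤ, |(Q : ℝ) * θ l - a| ≤ r) :
    ‖1 - (1 / (Y : ℂ) ^ D) * ∑ y ∈ cube D Y, ee (-dt θ ((Q : ℤ) • y))‖ ≤
      2 * Real.pi * (D * r * Y) := by
  choose a ha using h
  have hYpos : (0 : ℝ) < Y := by exact_mod_cast hY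
  have hYC : ((Y : ℂ)) ^ D ≠ 0 := by
    apply pow_ne_zero
    exact_mod_cast hYpos.ne'
  have h1 : ∀ y ∈ cube D Y, ‖1 - ee (-dt θ ((Q : ℤ) • y))‖ ≤ 2 * Real.pi * (D * r * Y) := by
    intro y hy
    have hy' : ∀ l, 0 ≤ y l ∧ y l < Y := by
      intro l
      have := Fintype.mem_piFinset.mp hy l
      exact Finset.mem_Ico.mp this
    have h2 : -dt θ ((Q : ℤ) • y) =
        (-∑ l, ((Q : ℝ) * θ l - a l) * y l) + ((-∑ l, a l * y l : ℤ) : ℝ) := by
      rw [dt_smul]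
      unfold dt
      push_cast
      rw [Finset.mul_sum, ← neg_add, ← Finset.sum_add_distrib]
      congr 1
      apply Finset.sum_congr rfl
      intro l _
      ring
    rw [h2, ee_add_int, norm_sub_rev]
    refine (norm_ee_sub_one_le _).trans ?_
    apply mul_le_mul_of_nonneg_left _ (by positivity)
    rw [abs_neg]
    calc |∑ l, ((Q : ℝ) * θ l - a l) * y l| ≤ ∑ l, |((Q : ℝ) * θ l - a l) * y l| :=
          Finset.abs_sum_le_sum_abs _ _
      _ ≤ ∑ l : Fin D, r * Y := by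
          apply Finset.sum_le_sum
          intro l _
          rw [abs_mul]
          apply mul_le_mul (ha l) _ (abs_nonneg _) hr
          have := hy' l
          rw [abs_of_nonneg (by exact_mod_cast this.1)]
          exact_mod_cast this.2.le
      _ = D * r * Y := by
          rw [Finset.sum_const, Finset.card_univ, Fintype.card_fin, nsmul_eq_mul]; ring
  have h3 : 1 - (1 / (Y : ℂ) ^ D) * ∑ y ∈ cube D Y, ee (-dt θ ((Q : ℤ) • y)) =
      (1 / (Y : ℂ) ^ D) * ∑ y ∈ cube D Y, (1 - ee (-dt θ ((Q : ℤ) • y))) := by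
    rw [Finset.sum_sub_distrib, Finset.sum_const, card_cube, nsmul_eq_mul, mul_one, mul_sub]
    push_cast
    rw [one_div_mul_cancel hYC]
  rw [h3, norm_mul]
  have h4 : ‖∑ y ∈ cube D Y, (1 - ee (-dt θ ((Q : ℤ) • y)))‖ ≤
      (Y : ℝ) ^ D * (2 * Real.pi * (D * r * Y)) := by
    refine (norm_sum_le _ _).trans ((Finset.sum_le_sum h1).trans (le_of_eq ?_))
    rw [Finset.sum_const, card_cube, nsmul_eq_mul]
    push_cast
    ring
  have h5 : ‖(1 / (Y : ℂ) ^ D)‖ = 1 / (Y : ℝ) ^ D := by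
    rw [norm_div, norm_one, norm_pow, Complex.norm_natCast]
  rw [h5]
  calc 1 / (Y : ℝ) ^ D * _ ≤ 1 / (Y : ℝ) ^ D * ((Y : ℝ) ^ D * (2 * Real.pi * (D * r * Y))) :=
        mul_le_mul_of_nonneg_left h4 (by positivity)
    _ = _ := by field_simp

/-- Trivial bound for the kernel. -/
theorem one_sub_K_le_two (Q Y : ℕ) (hY : 1 ≤ Y) (θ : Fin D → ℝ) :
    ‖1 - (1 / (Y : ℂ) ^ D) * ∑ y ∈ cube D Y, ee (-dt θ ((Q : ℤ) • y))‖ ≤ 2 := by
  have hYpos : (0 : ℝ) < Y := by exact_mod_cast hY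
  have h5 : ‖(1 / (Y : ℂ) ^ D)‖ = 1 / (Y : ℝ) ^ D := by
    rw [norm_div, norm_one, norm_pow, Complex.norm_natCast]
  calc _ ≤ ‖(1 : ℂ)‖ + ‖(1 / (Y : ℂ) ^ D) * ∑ y ∈ cube D Y, ee (-dt θ ((Q : ℤ) • y))‖ :=
        norm_sub_le _ _
    _ ≤ 1 + 1 := by
        rw [norm_one, norm_mul, h5]
        apply add_le_add le_rfl
        have h6 : ‖∑ y ∈ cube D Y, ee (-dt θ ((Q : ℤ) • y))‖ ≤ (Y : ℝ) ^ D := by
          refine (norm_sum_le _ _).trans (le_of_eq ?_)
          simp only [norm_ee, Finset.sum_const, card_cube, nsmul_eq_mul, mul_one]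
          push_cast
          rfl
        calc 1 / (Y : ℝ) ^ D * _ ≤ 1 / (Y : ℝ) ^ D * (Y : ℝ) ^ D :=
              mul_le_mul_of_nonneg_left h6 (by positivity)
          _ = 1 := by field_simp
    _ = 2 := by norm_num

/-- The symbol estimate. -/
theorem symbol_bound {J : ℕ} (B : Fin J → Fin D → ℤ)
    (hgen : ∀ s : Fin D ↪ Fin J, (Matrix.of (fun i l => B (s i) l)).det ≠ 0) (δ : ℝ)
    (hδ : 0 < δ) : ∃ Q : ℕ, 1 ≤ Q ∧ ∃ κ : ℝ, 0 < κ ∧ ∀ (I Y : ℕ), 1 ≤ I → 1 ≤ Y →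
      (Y : ℝ) ≤ κ * (I : ℝ) ^ 2 → ∀ (A : Fin J → Fin D → ℤ) (θ : Fin D → ℝ),
      ∑ j, (‖(1 / (I : ℂ)) * ∑ i ∈ range I,
          ee (-dt θ (((i : ℤ) ^ 2) • B j + (i : ℤ) • A j))‖ *
        ‖1 - (1 / (Y : ℂ) ^ D) * ∑ y ∈ cube D Y, ee (-dt θ ((Q : ℤ) • y))‖) ^ 2 ≤
        4 * D + δ * J := by
  classical
  set δ' : ℝ := min (Real.sqrt δ / 2) 1 with hδ'
  have hδ'0 : 0 < δ' := by
    rw [hδ']; exact lt_min (by positivity) one_pos
  have hδ'1 : δ' ≤ 1 := min_le_right _ _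
  have hδ's : 4 * δ' ^ 2 ≤ δ := by
    have h1 : δ' ≤ Real.sqrt δ / 2 := min_le_left _ _
    have h2 := Real.sq_sqrt hδ.le
    nlinarith
  obtain ⟨Q, C, hQ1, hC0, hmaj⟩ := major_all B hgen δ' hδ'0 hδ'1
  refine ⟨Q, hQ1, Real.sqrt δ / (2 * Real.pi * D * C + 1), by positivity, ?_⟩
  intro I Y hI hY hYI A θ
  have hIpos : (0 : ℝ) < I := by exact_mod_cast hI
  have hYpos : (0 : ℝ) < Y := by exact_mod_cast hY
  set k : ℝ := ‖1 - (1 / (Y : ℂ) ^ D) * ∑ y ∈ cube D Y, ee (-dt θ ((Q : ℤ) • y))‖ with hk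
  have hk0 : 0 ≤ k := norm_nonneg _
  have hk2 : k ≤ 2 := one_sub_K_le_two Q Y hY θ
  set m : Fin J → ℝ := fun j => ‖(1 / (I : ℂ)) * ∑ i ∈ range I,
          ee (-dt θ (((i : ℤ) ^ 2) • B j + (i : ℤ) • A j))‖ with hm
  have hm0 : ∀ j, 0 ≤ m j := fun j => norm_nonneg _
  have hmeq : ∀ j, m j = ‖∑ b ∈ range I, ee (dt θ (B j) * (b : ℝ) ^ 2 + dt θ (A j) * b)‖ / I := by
    intro j
    rw [hm]
    simp only
    rw [norm_mul, sum_ee_conj, norm_div, norm_one, Complex.norm_natCast, one_div_mul_eq_div]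
    congr 2
    apply Finset.sum_congr rfl
    intro i _
    rw [dt_add, dt_smul, dt_smul]
    congr 1
    push_cast
    ring
  have hm1 : ∀ j, m j ≤ 1 := by
    intro j
    rw [hmeq, div_le_one hIpos]
    refine (norm_sum_le _ _).trans (le_of_eq ?_)
    simp only [norm_ee, Finset.sum_const, Finset.card_range, nsmul_eq_mul, mul_one]
  set bad : Finset (Fin J) := univ.filter (fun j => δ' ≤ m j) with hbad
  have hgoal : ∑ j, (m j * k) ^ 2 ≤ 4 * D + δ * J := by
    by_cases hcard : D ≤ bad.card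
    · obtain ⟨t, ht, htc⟩ := Finset.exists_subset_card_eq hcard
      have h1 := hmaj I hI (fun j => dt θ (A j)) θ
        ⟨(t.orderEmbOfFin htc).toEmbedding, by
          intro i
          have h2 : t.orderEmbOfFin htc i ∈ bad := ht (Finset.orderEmbOfFin_mem t htc i)
          have h3 := (Finset.mem_filter.mp h2).2
          rw [hmeq, le_div_iff₀ hIpos] at h3
          exact h3⟩
      have h4 : k ≤ 2 * Real.pi * (D * (C / (I : ℝ) ^ 2) * Y) :=
        one_sub_K Q Y hY θ (C / (I : ℝ) ^ 2) (by positivity) h1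
      have h5 : k ≤ Real.sqrt δ := by
        refine h4.trans ?_
        have h6 : (Y : ℝ) / (I : ℝ) ^ 2 ≤ Real.sqrt δ / (2 * Real.pi * D * C + 1) := by
          rw [div_le_iff₀ (by positivity)]
          exact hYI
        calc 2 * Real.pi * (D * (C / (I : ℝ) ^ 2) * Y) =
              (2 * Real.pi * D * C) * ((Y : ℝ) / (I : ℝ) ^ 2) := by ring
          _ ≤ (2 * Real.pi * D * C) * (Real.sqrt δ / (2 * Real.pi * D * C + 1)) :=
              mul_le_mul_of_nonneg_left h6 (by positivity)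
          _ ≤ Real.sqrt δ := by
              rw [← mul_div_assoc, div_le_iff₀ (by positivity)]
              nlinarith [Real.sqrt_nonneg δ]
      have h7 : k ^ 2 ≤ δ := by
        have h2 := Real.sq_sqrt hδ.le
        nlinarith
      calc ∑ j, (m j * k) ^ 2 ≤ ∑ j : Fin J, δ := by
            apply Finset.sum_le_sum
            intro j _
            rw [mul_pow]
            have h8 : m j ^ 2 ≤ 1 := by
              have := hm1 j
              have := hm0 j
              nlinarith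
            nlinarith [sq_nonneg k]
        _ = δ * J := by
            rw [Finset.sum_const, Finset.card_univ, Fintype.card_fin, nsmul_eq_mul]; ring
        _ ≤ _ := by
            have : (0 : ℝ) ≤ D := Nat.cast_nonneg D
            linarith
    · have hcard' : (bad.card : ℝ) ≤ D := by
        exact_mod_cast (by omega : bad.card ≤ D)
      have hk4 : k ^ 2 ≤ 4 := by nlinarith
      calc ∑ j, (m j * k) ^ 2 ≤ ∑ j : Fin J, ((if j ∈ bad then 4 else 0) + δ) := by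
            apply Finset.sum_le_sum
            intro j _
            rw [mul_pow]
            by_cases hj : j ∈ bad
            · rw [if_pos hj]
              have h8 : m j ^ 2 ≤ 1 := by
                have := hm1 j
                have := hm0 j
                nlinarith
              nlinarith [sq_nonneg k, sq_nonneg (m j)]
            · rw [if_neg hj]
              have h9 : m j < δ' := by
                by_contra hcon
                exact hj (Finset.mem_filter.mpr ⟨Finset.mem_univ j, not_lt.mp hcon⟩)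
              have h10 : m j ^ 2 ≤ δ' ^ 2 := pow_le_pow_left₀ (hm0 j) h9.le 2
              nlinarith [sq_nonneg k, sq_nonneg (m j)]
        _ = 4 * bad.card + δ * J := by
            rw [Finset.sum_add_distrib, Finset.sum_const, Finset.card_univ, Fintype.card_fin,
              nsmul_eq_mul, Finset.sum_ite_mem, Finset.univ_inter, Finset.sum_const,
              nsmul_eq_mul]
            ring
        _ ≤ _ := by linarith
  exact hgoal

/-- **LINK, L2 form.** -/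
theorem link_l2 {J : ℕ} (B : Fin J → Fin D → ℤ)
    (hgen : ∀ s : Fin D ↪ Fin J, (Matrix.of (fun i l => B (s i) l)).det ≠ 0) (δ : ℝ)
    (hδ : 0 < δ) : ∃ Q : ℕ, 1 ≤ Q ∧ ∃ κ : ℝ, 0 < κ ∧ ∀ (I Y : ℕ), 1 ≤ I → 1 ≤ Y →
      (Y : ℝ) ≤ κ * (I : ℝ) ^ 2 → ∀ (A : Fin J → Fin D → ℤ) (b : (Fin D → ℤ) → ℝ)
      (X₀ : Finset (Fin D → ℤ)), (∀ x, x ∉ X₀ → b x = 0) → ∀ X : Finset (Fin D → ℤ),
      ∑ j, ∑ x ∈ X, ((1 / (I : ℝ)) * ∑ i ∈ range I,
        (b (x + (((i : ℤ) ^ 2) • B j + (i : ℤ) • A j)) -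
          KK D Q Y b (x + (((i : ℤ) ^ 2) • B j + (i : ℤ) • A j)))) ^ 2 ≤
        (4 * D + δ * J) * ∑ x ∈ X₀, b x ^ 2 := by
  classical
  obtain ⟨Q, hQ1, κ, hκ, hsym⟩ := symbol_bound B hgen δ hδ
  refine ⟨Q, hQ1, κ, hκ, ?_⟩
  intro I Y hI hY hYI A b X₀ hb X
  set w : Fin J → ℕ → Fin D → ℤ := fun j i => ((i : ℤ) ^ 2) • B j + (i : ℤ) • A j with hw
  set c : Fin J → ℕ × Option (Fin D → ℤ) → ℂ := fun _ s =>
    match s.2 with
    | none => 1 / (I : ℂ)
    | some _ => -(1 / (I : ℂ)) * (1 / (Y : ℂ) ^ D) with hc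
  set W : Fin J → ℕ × Option (Fin D → ℤ) → Fin D → ℤ := fun j s =>
    match s.2 with
    | none => w j s.1
    | some y => w j s.1 + (Q : ℤ) • y with hW
  set S : Finset (ℕ × Option (Fin D → ℤ)) := range I ×ˢ Finset.insertNone (cube D Y) with hS
  have key : ∀ (g : ℕ × Option (Fin D → ℤ) → ℂ), ∑ s ∈ S, g s =
      ∑ i ∈ range I, (g (i, none) + ∑ y ∈ cube D Y, g (i, some y)) := by
    intro g
    rw [hS, Finset.sum_product]
    apply Finset.sum_congr rfl
    intro i _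
    rw [Finset.sum_insertNone]
  have hm : ∀ θ : Fin D → ℝ, ∑ j ∈ (univ : Finset (Fin J)),
      ‖∑ s ∈ S, c j s * ee (-dt θ (W j s))‖ ^ 2 ≤ 4 * D + δ * J := by
    intro θ
    refine le_trans (le_of_eq ?_) (hsym I Y hI hY hYI A θ)
    apply Finset.sum_congr rfl
    intro j _
    rw [← norm_mul]
    congr 2
    rw [key, Finset.mul_sum, Finset.sum_mul]
    apply Finset.sum_congr rfl
    intro i _
    simp only [hc, hW, hw]
    rw [mul_sub, mul_one]
    have h1 : ∑ y ∈ cube D Y, -(1 / (I : ℂ)) * (1 / (Y : ℂ) ^ D) *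
        ee (-dt θ (((i : ℤ) ^ 2) • B j + (i : ℤ) • A j + (Q : ℤ) • y)) =
        -(1 / (I : ℂ) * ee (-dt θ (((i : ℤ) ^ 2) • B j + (i : ℤ) • A j)) *
          ((1 / (Y : ℂ) ^ D) * ∑ y ∈ cube D Y, ee (-dt θ ((Q : ℤ) • y)))) := by
      rw [Finset.mul_sum, Finset.mul_sum, ← Finset.sum_neg_distrib]
      apply Finset.sum_congr rfl
      intro y _
      rw [dt_add, neg_add, ee_add]
      ring
    rw [h1]
    ring
  have hmain := multiplier_family (univ : Finset (Fin J)) S c W (4 * D + δ * J) hm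
    (fun x => (b x : ℂ)) X₀ (fun x hx => by rw [hb x hx]; simp) X
  have hR : ∑ x ∈ X₀, ‖((b x : ℂ))‖ ^ 2 = ∑ x ∈ X₀, b x ^ 2 := by
    apply Finset.sum_congr rfl
    intro x _
    rw [Complex.norm_real, Real.norm_eq_abs, sq_abs]
  rw [hR] at hmain
  refine le_trans (le_of_eq ?_) hmain
  apply Finset.sum_congr rfl
  intro j _
  apply Finset.sum_congr rfl
  intro x _
  have h1 : ∑ s ∈ S, c j s * (b (x + W j s) : ℂ) =
      (((1 / (I : ℝ)) * ∑ i ∈ range I,
        (b (x + (((i : ℤ) ^ 2) • B j + (i : ℤ) • A j)) -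
          KK D Q Y b (x + (((i : ℤ) ^ 2) • B j + (i : ℤ) • A j))) : ℝ) : ℂ) := by
    rw [key]
    unfold KK
    push_cast
    rw [Finset.mul_sum]
    apply Finset.sum_congr rfl
    intro i _
    simp only [hc, hW, hw]
    rw [Finset.mul_sum, mul_sub, Finset.mul_sum, sub_eq_add_neg, ← Finset.sum_neg_distrib]
    congr 1
    apply Finset.sum_congr rfl
    intro y _
    rw [add_assoc]
    ring_nf
  rw [h1, Complex.norm_real, Real.norm_eq_abs, sq_abs]

end Vale.Agent.P011.H436
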